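import Vale.Agent.P268.T.Mono2

/-!
# P268, topological half: ray functions `FS ε K`

Variables `x j = u j + i v j`.  In the plane of `x j` the rays are `{u < 0, v = 0}` and
`{u > 0, v = k u}`, `k : ℕ`.  For a finite nonempty family `K : σ → ι → ℕ`

  `FS ε K x = max_a ∑ j, ray ε (K a j) (x j) + i ∑ j, turn (x j)`.
-/

namespace Vale.Agent.P268.T

open Set Filter Topology

/-- The triangle wave: `1`-periodic, `tri w = w - k` for `|w - k| ≤ 1/4`. -/
noncomputable def tri (w : ℝ) : ℝ := 1 / 4 - |Int.fract (w + 1 / 4) - 1 / 2|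

/-- Height function of the pair of rays `{u < 0, v = 0}`, `{u > 0, v = k u}`. -/
noncomputable def ray (ε : ℝ) (k : ℕ) (z : ℂ) : ℝ := ε * |z.re| - |z.im - k * max z.re 0| / 2

/-- Imaginary part: `sgn u * (v - k u⁺)` near the rays. -/
noncomputable def turn (z : ℂ) : ℝ := z.re * tri (z.im / |z.re|)

/-- The real part of the ray function. -/
noncomputable def raySup {σ ι : Type} [Fintype σ] [Nonempty σ] [Fintype ι] (ε : ℝ)
    (K : σ → ι → ℕ) (x : ι → ℂ) : ℝ :=
  Finset.univ.sup' Finset.univ_nonempty fun a => ∑ j, ray ε (K a j) (x j)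

/-- The imaginary part of the ray function. -/
noncomputable def turnSum {ι : Type} [Fintype ι] (x : ι → ℂ) : ℝ := ∑ j, turn (x j)

/-- The ray function of the family `K`. -/
noncomputable def FS {σ ι : Type} [Fintype σ] [Nonempty σ] [Fintype ι] (ε : ℝ)
    (K : σ → ι → ℕ) (x : ι → ℂ) : ℂ := ⟨raySup ε K x, turnSum x⟩

end Vale.Agent.P268.T
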