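import Vale.Agent.P268.T.K373.Inc
import Vale.Agent.P268.T.N625.Real

/-!
# P268, topological half: the family lemma for sheets with a common coplanar imaginary part

`F = max_a (E_a(t,u) - ‖v - c_a(t,u)‖/2) + i β(t,u,v)` with `β = ⟪v - c_a, ν(t,u)⟫` near every
point where the sheet `a` is active.  At all points where `F ≠ 0` regularity is automatic; at zeros
one growing direction is needed.
-/

set_option linter.unusedSectionVars false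

namespace Vale.Agent.P268.T

open Set Filter Topology

/-! ### Increments of the norm along a line -/

section norm

variable {V : Type*} [NormedAddCommGroup V] [InnerProductSpace ℝ V]

theorem norm_line (w n : V) (γ : ℝ) : (‖w + γ • n‖ - ‖w‖) * (‖w + γ • n‖ + ‖w‖) =
    2 * γ * inner ℝ w n + γ ^ 2 * ‖n‖ ^ 2 := by
  have h : ‖w + γ • n‖ ^ 2 = ‖w‖ ^ 2 + 2 * (γ * inner ℝ w n) + γ ^ 2 * ‖n‖ ^ 2 := by
    rw [norm_add_sq_real, inner_smul_right, norm_smul, mul_pow, Real.norm_eq_abs, sq_abs]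
  nlinarith

theorem norm_line_le (w n : V) (γ : ℝ) : |‖w + γ • n‖ - ‖w‖| ≤ ‖n‖ * |γ| := by
  have := abs_norm_sub_norm_le (w + γ • n) w
  rw [add_sub_cancel_left, norm_smul, Real.norm_eq_abs] at this
  linarith

/-- orthogonal direction at a nonzero vector: small increments -/
theorem norm_line_small {w₀ n : V} (hw : w₀ ≠ 0) (hn : inner ℝ w₀ n = 0) {L : ℝ} (hL : 0 < L) :
    ∃ ρ > 0, ∀ w : V, ‖w - w₀‖ ≤ ρ → ∀ γ : ℝ, |γ| ≤ ρ → |‖w + γ • n‖ - ‖w‖| ≤ L * |γ| := by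
  have hw0 : 0 < ‖w₀‖ := norm_pos_iff.mpr hw
  set C := 2 * ‖n‖ + ‖n‖ ^ 2 + 1 with hC
  have hC0 : 0 < C := by positivity
  refine ⟨min (‖w₀‖ / 2) (L * (‖w₀‖ / 2) / C), by positivity, fun w hw1 γ hγ => ?_⟩
  set ρ := min (‖w₀‖ / 2) (L * (‖w₀‖ / 2) / C) with hρ
  have hρ1 : ρ ≤ ‖w₀‖ / 2 := min_le_left _ _
  have hρ2 : ρ * C ≤ L * (‖w₀‖ / 2) := by
    have := min_le_right (‖w₀‖ / 2) (L * (‖w₀‖ / 2) / C)
    rwa [← hρ, le_div_iff₀ hC0] at this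
  have hwn : ‖w₀‖ / 2 ≤ ‖w‖ := by
    have := norm_sub_norm_le w₀ w
    rw [norm_sub_rev] at this
    linarith
  have hin : |inner ℝ w n| ≤ ρ * ‖n‖ := by
    have h1 : inner ℝ w n = inner ℝ (w - w₀) n := by rw [inner_sub_left, hn, sub_zero]
    rw [h1]
    exact (abs_real_inner_le_norm _ _).trans (mul_le_mul_of_nonneg_right hw1 (norm_nonneg _))
  have hid := norm_line w n γ
  have hs : ‖w₀‖ / 2 ≤ ‖w + γ • n‖ + ‖w‖ := by linarith [norm_nonneg (w + γ • n)]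
  have hs0 : 0 ≤ ‖w + γ • n‖ + ‖w‖ := by positivity
  have h2 : |‖w + γ • n‖ - ‖w‖| * (‖w + γ • n‖ + ‖w‖) ≤ |γ| * (ρ * C) := by
    have e1 : |‖w + γ • n‖ - ‖w‖| * (‖w + γ • n‖ + ‖w‖) =
        |2 * γ * inner ℝ w n + γ ^ 2 * ‖n‖ ^ 2| := by
      rw [← hid, abs_mul, abs_of_nonneg hs0]
    rw [e1]
    calc |2 * γ * inner ℝ w n + γ ^ 2 * ‖n‖ ^ 2| ≤ |2 * γ * inner ℝ w n| + |γ ^ 2 * ‖n‖ ^ 2| :=
          abs_add_le _ _
      _ = |γ| * (2 * |inner ℝ w n|) + |γ| * (|γ| * ‖n‖ ^ 2) := by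
          rw [abs_mul (2 * γ), abs_mul 2 γ, abs_two, abs_mul (γ ^ 2), abs_pow,
            abs_of_nonneg (sq_nonneg ‖n‖)]
          ring
      _ ≤ |γ| * (2 * (ρ * ‖n‖)) + |γ| * (ρ * ‖n‖ ^ 2) := by gcongr
      _ ≤ |γ| * (ρ * C) := by
          rw [hC]
          have : 0 ≤ |γ| * ρ := mul_nonneg (abs_nonneg _) (by positivity)
          nlinarith
  have h3 : |‖w + γ • n‖ - ‖w‖| * (‖w₀‖ / 2) ≤ L * |γ| * (‖w₀‖ / 2) := by
    calc |‖w + γ • n‖ - ‖w‖| * (‖w₀‖ / 2)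
        ≤ |‖w + γ • n‖ - ‖w‖| * (‖w + γ • n‖ + ‖w‖) := by gcongr
      _ ≤ |γ| * (ρ * C) := h2
      _ ≤ |γ| * (L * (‖w₀‖ / 2)) := by gcongr
      _ = _ := by ring
  exact le_of_mul_le_mul_right h3 (by positivity)

/-- direction with nonzero inner product: the norm moves with the sign of the inner product -/
theorem norm_line_sign {w₀ n : V} {q W : ℝ} (hq : inner ℝ w₀ n = q) (hq0 : q ≠ 0)
    (hW : ‖w₀‖ ≤ W) :
    ∃ ρ > 0, ∀ w : V, ‖w - w₀‖ ≤ ρ → ∀ γ : ℝ, |γ| ≤ ρ →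
      q ^ 2 / (4 * (W + 1)) * γ ^ 2 ≤ q * γ * (‖w + γ • n‖ - ‖w‖) := by
  have hW0 : 0 ≤ W := (norm_nonneg _).trans hW
  have hqa : 0 < |q| := abs_pos.mpr hq0
  have hw0 : 0 < ‖w₀‖ := by
    rw [norm_pos_iff]; rintro rfl; rw [inner_zero_left] at hq; exact hq0 hq.symm
  set C := 4 * (‖n‖ + ‖n‖ ^ 2 + 1) with hC
  have hC0 : 0 < C := by positivity
  refine ⟨min (min (‖w₀‖ / 2) (1 / (2 * (‖n‖ + 1)))) (|q| / C), by positivity,
    fun w hw1 γ hγ => ?_⟩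
  set ρ := min (min (‖w₀‖ / 2) (1 / (2 * (‖n‖ + 1)))) (|q| / C) with hρ
  have hρ0 : 0 ≤ ρ := (abs_nonneg _).trans hγ
  have hρ1 : ρ ≤ ‖w₀‖ / 2 := (min_le_left _ _).trans (min_le_left _ _)
  have hρ2 : ρ * C ≤ |q| := by
    have := min_le_right (min (‖w₀‖ / 2) (1 / (2 * (‖n‖ + 1)))) (|q| / C)
    rwa [← hρ, le_div_iff₀ hC0] at this
  have hρ3 : ρ * (2 * (‖n‖ + 1)) ≤ 1 := by
    have h1 : ρ ≤ 1 / (2 * (‖n‖ + 1)) := (min_le_left _ _).trans (min_le_right _ _)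
    rwa [le_div_iff₀ (by positivity)] at h1
  have hwn : ‖w₀‖ / 2 ≤ ‖w‖ := by
    have := norm_sub_norm_le w₀ w
    rw [norm_sub_rev] at this
    linarith
  have hwW : ‖w‖ ≤ W + ρ := by
    have := norm_sub_norm_le w w₀
    linarith
  have hρn : ρ * ‖n‖ ≤ 1 / 2 := by nlinarith [norm_nonneg n]
  have hρh : ρ ≤ 1 / 2 := by nlinarith [norm_nonneg n, mul_nonneg hρ0 (norm_nonneg n)]
  have hsum : ‖w + γ • n‖ + ‖w‖ ≤ 2 * (W + 1) := by
    have h1 : ‖w + γ • n‖ ≤ ‖w‖ + ρ * ‖n‖ := by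
      refine (norm_add_le _ _).trans ?_
      rw [norm_smul, Real.norm_eq_abs]
      gcongr
    linarith
  have hspos : 0 < ‖w + γ • n‖ + ‖w‖ := by linarith [norm_nonneg (w + γ • n)]
  have hin : |inner ℝ w n - q| ≤ ρ * ‖n‖ := by
    have h1 : inner ℝ w n - q = inner ℝ (w - w₀) n := by rw [inner_sub_left, hq]
    rw [h1]
    exact (abs_real_inner_le_norm _ _).trans (mul_le_mul_of_nonneg_right hw1 (norm_nonneg _))
  have hid := norm_line w n γ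
  -- numerator
  have hnum : q ^ 2 ≤ 2 * (q * inner ℝ w n) + q * γ * ‖n‖ ^ 2 := by
    have e1 : -(|q| * (ρ * ‖n‖)) ≤ q * (inner ℝ w n - q) := by
      have : |q * (inner ℝ w n - q)| ≤ |q| * (ρ * ‖n‖) := by rw [abs_mul]; gcongr
      exact (abs_le.mp this).1
    have e2 : -(|q| * (ρ * ‖n‖ ^ 2)) ≤ q * γ * ‖n‖ ^ 2 := by
      have : |q * γ * ‖n‖ ^ 2| ≤ |q| * (ρ * ‖n‖ ^ 2) := by
        rw [abs_mul, abs_mul, abs_of_nonneg (sq_nonneg ‖n‖), mul_assoc]; gcongr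
      exact (abs_le.mp this).1
    have e3 : q ^ 2 = |q| * |q| := by rw [← sq_abs q]; ring
    have e4 : |q| * (2 * (ρ * ‖n‖) + ρ * ‖n‖ ^ 2) ≤ |q| * |q| := by
      refine mul_le_mul_of_nonneg_left (le_trans ?_ hρ2) hqa.le
      rw [hC]
      have a1 := mul_nonneg hρ0 (norm_nonneg n)
      have a2 := mul_nonneg hρ0 (sq_nonneg ‖n‖)
      linarith
    have e5 : q * (inner ℝ w n - q) = q * inner ℝ w n - q ^ 2 := by ring
    rw [e5] at e1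
    linarith
  have key : q ^ 2 * γ ^ 2 ≤ q * γ * (‖w + γ • n‖ - ‖w‖) * (‖w + γ • n‖ + ‖w‖) := by
    have : q * γ * (‖w + γ • n‖ - ‖w‖) * (‖w + γ • n‖ + ‖w‖) =
        γ ^ 2 * (2 * (q * inner ℝ w n) + q * γ * ‖n‖ ^ 2) := by
      rw [mul_assoc, hid]; ring
    rw [this]
    linarith [mul_le_mul_of_nonneg_left hnum (sq_nonneg γ)]
  set D := q * γ * (‖w + γ • n‖ - ‖w‖) with hD
  have hD0 : 0 ≤ D := by
    by_contra hneg
    push Not at hneg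
    have : D * (‖w + γ • n‖ + ‖w‖) < 0 := mul_neg_of_neg_of_pos hneg hspos
    have h0 : 0 ≤ q ^ 2 * γ ^ 2 := by positivity
    linarith
  have h4 : q ^ 2 * γ ^ 2 ≤ D * (2 * (W + 1)) := key.trans (mul_le_mul_of_nonneg_left hsum hD0)
  rw [div_mul_eq_mul_div, div_le_iff₀ (by positivity)]
  have h5 : 0 ≤ D * (2 * (W + 1)) := by positivity
  linarith

end norm

section line

variable {E : Type*} [NormedAddCommGroup E] [NormedSpace ℝ E]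
  {T : Type*} [TopologicalSpace T] {s : Set T} {t₀ : T} {x₀ e : E}

theorem LineInc.small (he : e ≠ 0) {ρ : ℝ} (hρ : 0 < ρ) :
    LineInc s t₀ x₀ e fun _ _ γ => |γ| ≤ ρ := by
  have he0 : 0 < ‖e‖ := norm_pos_iff.mpr he
  refine ⟨Metric.ball x₀ (ρ * ‖e‖ / 2), Metric.ball_mem_nhds _ (by positivity),
    Eventually.of_forall fun t x hx γ hγ => ?_⟩
  rw [Metric.mem_ball, dist_eq_norm] at hx hγ
  have h1 : ‖γ • e‖ < ρ * ‖e‖ := by
    have h2 : γ • e = (x + γ • e - x₀) - (x - x₀) := by abel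
    rw [h2]
    refine (norm_sub_le _ _).trans_lt ?_
    linarith
  rw [norm_smul, Real.norm_eq_abs] at h1
  exact (lt_of_mul_lt_mul_right h1 he0.le).le

theorem LineInc.of_ev {P : T → E → Prop}
    (h : ∃ U ∈ 𝓝 x₀, ∀ᶠ t in 𝓝[s] t₀, ∀ x ∈ U, P t x) :
    LineInc s t₀ x₀ e fun t x γ => P t x ∧ P t (x + γ • e) := by
  obtain ⟨U, hU, h⟩ := h
  exact ⟨U, hU, h.mono fun t ht x hx γ hγ => ⟨ht x hx, ht _ hγ⟩⟩

end line

/-! ### Sheets -/

section sheets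

variable {S V T α : Type*} [NormedAddCommGroup S] [NormedSpace ℝ S] [NormedAddCommGroup V]
  [InnerProductSpace ℝ V] [TopologicalSpace T]

/-- The height function of the sheet `a`. -/
noncomputable def sheetH (c : α → T → S → V) (E : α → T → S → ℝ) (a : α) (t : T) (x : S × V) :
    ℝ := E a t x.1 - ‖x.2 - c a t x.1‖ / 2

variable [Fintype α] [Nonempty α]

/-- The maximum of the heights. -/
noncomputable def sheetSup (c : α → T → S → V) (E : α → T → S → ℝ) (t : T) (x : S × V) : ℝ :=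
  Finset.univ.sup' Finset.univ_nonempty fun a => sheetH c E a t x

/-- The function of the system of sheets. -/
noncomputable def sheetFn (c : α → T → S → V) (E : α → T → S → ℝ) (β : T → S × V → ℝ) (t : T)
    (x : S × V) : ℂ := ⟨sheetSup c E t x, β t x⟩

/-- A growing direction at a zero. -/
def ZeroDir (s : Set T) (c : α → T → S → V) (E : α → T → S → ℝ) (ν : T → S → V)
    (β : T → S × V → ℝ) (t₀ : T) (x₀ : S × V) : Prop :=
  ∃ e : S × V, ∃ κ > 0, (∀ a, sheetH c E a t₀ x₀ = 0 → ∃ U ∈ 𝓝 x₀, ∀ᶠ t in 𝓝[s] t₀,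
      GrowsOn κ (sheetH c E a t) e U) ∧
    ((∀ a, sheetH c E a t₀ x₀ = 0 → x₀.2 ≠ c a t₀ x₀.1) ∨
      ∃ μ, μ < κ * ‖ν t₀ x₀.1‖ ∧ ∃ U ∈ 𝓝 x₀, ∀ᶠ t in 𝓝[s] t₀, ∀ x ∈ U, ∀ γ : ℝ,
        x + γ • e ∈ U → |β t (x + γ • e) - β t x| ≤ μ * |γ|)

/-- Systems of sheets. -/
structure SheetSys (s : Set T) (c : α → T → S → V) (E : α → T → S → ℝ) (ν : T → S → V)
    (β : T → S × V → ℝ) : Prop where
  cc : ∀ a, ContinuousOn (fun p : T × S => c a p.1 p.2) (s ×ˢ univ)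
  cE : ∀ a, ContinuousOn (fun p : T × S => E a p.1 p.2) (s ×ˢ univ)
  cβ : ContinuousOn (fun p : T × (S × V) => β p.1 p.2) (s ×ˢ univ)
  hc : ∀ a, ∀ t ∈ s, ∀ r : ℝ, 0 ≤ r → ∀ u, c a t (r • u) = r • c a t u
  hE : ∀ a, ∀ t ∈ s, ∀ r : ℝ, 0 ≤ r → ∀ u, E a t (r • u) = r * E a t u
  hβ : ∀ t ∈ s, ∀ r : ℝ, 0 ≤ r → ∀ x, β t (r • x) = r * β t x
  cν : ∀ t₀ ∈ s, ∀ u₀ ≠ 0,
    ContinuousWithinAt (fun p : T × S => ν p.1 p.2) (s ×ˢ univ) (t₀, u₀)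
  lc : ∀ a, ∀ t₀ ∈ s, ∀ u₀ ≠ 0, LocLip s (c a) t₀ u₀
  lE : ∀ a, ∀ t₀ ∈ s, ∀ u₀ ≠ 0, LocLip s (E a) t₀ u₀
  lν : ∀ t₀ ∈ s, ∀ u₀ ≠ 0, LocLip s ν t₀ u₀
  ν0 : ∀ t₀ ∈ s, ∀ u₀ ≠ 0, ν t₀ u₀ ≠ 0
  im : ∀ t₀ ∈ s, ∀ x₀ : S × V, x₀.1 ≠ 0 → 0 ≤ sheetSup c E t₀ x₀ → ∀ a,
    sheetH c E a t₀ x₀ = sheetSup c E t₀ x₀ → ∃ U ∈ 𝓝 x₀, ∀ᶠ t in 𝓝[s] t₀, ∀ x ∈ U,
      β t x = inner ℝ (x.2 - c a t x.1) (ν t x.1)
  zero : ∀ t₀ ∈ s, ∀ x₀ : S × V, x₀.1 ≠ 0 → sheetSup c E t₀ x₀ = 0 → β t₀ x₀ = 0 →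
    ZeroDir s c E ν β t₀ x₀

variable {s : Set T} {c : α → T → S → V} {E : α → T → S → ℝ} {ν : T → S → V}
  {β : T → S × V → ℝ} {t₀ : T} {x₀ : S × V}

theorem cwa_comp_fst {W : Type*} [TopologicalSpace W] {f : T → S → W}
    (h : ContinuousWithinAt (fun p : T × S => f p.1 p.2) (s ×ˢ univ) (t₀, x₀.1)) :
    ContinuousWithinAt (fun p : T × (S × V) => f p.1 p.2.1) (s ×ˢ univ) (t₀, x₀) := by
  have h1 : ContinuousWithinAt (fun p : T × (S × V) => (p.1, p.2.1)) (s ×ˢ univ) (t₀, x₀) :=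
    (continuous_fst.prodMk (continuous_fst.comp continuous_snd)).continuousWithinAt
  exact ContinuousWithinAt.comp (t := s ×ˢ univ) (g := fun p : T × S => f p.1 p.2)
    (f := fun p : T × (S × V) => (p.1, p.2.1)) h h1 (fun p hp => ⟨hp.1, mem_univ _⟩)

theorem LocLip.comp_fst {W : Type*} [NormedAddCommGroup W] {f : T → S → W}
    (h : LocLip s f t₀ x₀.1) : LocLip s (fun t (x : S × V) => f t x.1) t₀ x₀ := by
  obtain ⟨L, U, hU, h⟩ := h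
  refine ⟨|L|, Prod.fst ⁻¹' U, continuous_fst.continuousAt hU, h.mono fun t ht x hx y hy => ?_⟩
  refine (ht x.1 hx y.1 hy).trans ?_
  calc L * ‖x.1 - y.1‖ ≤ |L| * ‖x.1 - y.1‖ :=
        mul_le_mul_of_nonneg_right (le_abs_self L) (norm_nonneg _)
    _ ≤ |L| * ‖x - y‖ := mul_le_mul_of_nonneg_left (norm_fst_le (x - y)) (abs_nonneg _)

theorem LocLip.sub {E' W : Type*} [NormedAddCommGroup E'] [NormedAddCommGroup W]
    {f g : T → E' → W} {y₀ : E'} (hf : LocLip s f t₀ y₀) (hg : LocLip s g t₀ y₀) :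
    LocLip s (fun t x => f t x - g t x) t₀ y₀ := by
  obtain ⟨L, U, hU, h⟩ := hf
  obtain ⟨L', U', hU', h'⟩ := hg
  refine ⟨L + L', U ∩ U', inter_mem hU hU', ?_⟩
  filter_upwards [h, h'] with t a b x hx y hy
  have e : f t x - g t x - (f t y - g t y) = (f t x - f t y) - (g t x - g t y) := by abel
  rw [e, add_mul]
  exact (norm_sub_le _ _).trans (add_le_add (a x hx.1 y hy.1) (b x hx.2 y hy.2))

theorem LocLip.norm_half {E' W : Type*} [NormedAddCommGroup E'] [NormedAddCommGroup W]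
    {f : T → E' → W} {y₀ : E'} (hf : LocLip s f t₀ y₀) :
    LocLip s (fun t x => ‖f t x‖ / 2) t₀ y₀ := by
  obtain ⟨L, U, hU, h⟩ := hf
  refine ⟨L, U, hU, h.mono fun t a x hx y hy => ?_⟩
  have h1 := abs_norm_sub_norm_le (f t x) (f t y)
  have h2 := a x hx y hy
  rw [Real.norm_eq_abs, ← sub_div, abs_div, abs_two]
  linarith [abs_nonneg (‖f t x‖ - ‖f t y‖)]

theorem locLip_snd {W : Type*} [NormedAddCommGroup W] {E' : Type*} [NormedAddCommGroup E']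
    {y₀ : E' × W} : LocLip s (fun (_ : T) (x : E' × W) => x.2) t₀ y₀ :=
  ⟨1, univ, univ_mem, Eventually.of_forall fun t x _ y _ => by
    rw [one_mul]; exact norm_snd_le (x - y)⟩

theorem LocLip.inner {E' W : Type*} [NormedAddCommGroup E'] [NormedSpace ℝ E']
    [NormedAddCommGroup W] [InnerProductSpace ℝ W]
    {f g : T → E' → W} {y₀ : E'} (hf : LocLip s f t₀ y₀) (hg : LocLip s g t₀ y₀)
    (cf : ContinuousWithinAt (fun p : T × E' => f p.1 p.2) (s ×ˢ univ) (t₀, y₀))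
    (cg : ContinuousWithinAt (fun p : T × E' => g p.1 p.2) (s ×ˢ univ) (t₀, y₀)) :
    LocLip s (fun t x => Inner.inner ℝ (f t x) (g t x)) t₀ y₀ := by
  obtain ⟨L, U, hU, h⟩ := hf
  obtain ⟨L', U', hU', h'⟩ := hg
  have bd : ∀ {f : T → E' → W}, ContinuousWithinAt (fun p : T × E' => f p.1 p.2)
      (s ×ˢ univ) (t₀, y₀) → ∃ U ∈ 𝓝 y₀, ∀ᶠ t in 𝓝[s] t₀, ∀ x ∈ U, ‖f t x‖ ≤ ‖f t₀ y₀‖ + 1 := by
    intro f cf
    refine ev_prod (Q := fun t x => ‖f t x‖ ≤ ‖f t₀ y₀‖ + 1) ?_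
    have := cf.norm.eventually (gt_mem_nhds (show ‖f t₀ y₀‖ < ‖f t₀ y₀‖ + 1 by linarith))
    exact this.mono fun z hz => le_of_lt hz
  obtain ⟨U₁, hU₁, b1⟩ := bd cf
  obtain ⟨U₂, hU₂, b2⟩ := bd cg
  refine ⟨|L| * (‖g t₀ y₀‖ + 1) + (‖f t₀ y₀‖ + 1) * |L'|, (U ∩ U') ∩ (U₁ ∩ U₂),
    inter_mem (inter_mem hU hU') (inter_mem hU₁ hU₂), ?_⟩
  filter_upwards [h, h', b1, b2] with t a b c d x hx y hy
  have e : Inner.inner ℝ (f t x) (g t x) - Inner.inner ℝ (f t y) (g t y) =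
      Inner.inner ℝ (f t x - f t y) (g t x) + Inner.inner ℝ (f t y) (g t x - g t y) := by
    rw [inner_sub_left, inner_sub_right]; ring
  rw [Real.norm_eq_abs, e]
  refine (abs_add_le _ _).trans ?_
  have h1 : |Inner.inner ℝ (f t x - f t y) (g t x)| ≤ (|L| * ‖x - y‖) * (‖g t₀ y₀‖ + 1) := by
    refine (abs_real_inner_le_norm _ _).trans ?_
    refine mul_le_mul ((a x hx.1.1 y hy.1.1).trans ?_) (d x hx.2.2) (norm_nonneg _) (by positivity)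
    exact mul_le_mul_of_nonneg_right (le_abs_self L) (norm_nonneg _)
  have h2 : |Inner.inner ℝ (f t y) (g t x - g t y)| ≤ (‖f t₀ y₀‖ + 1) * (|L'| * ‖x - y‖) := by
    refine (abs_real_inner_le_norm _ _).trans ?_
    refine mul_le_mul (c y hy.2.1) ((b x hx.1.2 y hy.1.2).trans ?_) (norm_nonneg _)
      (by positivity)
    exact mul_le_mul_of_nonneg_right (le_abs_self L') (norm_nonneg _)
  calc _ ≤ _ := add_le_add h1 h2
    _ = _ := by ring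

namespace SheetSys

variable (H : SheetSys s c E ν β)
include H

theorem cwc (a : α) (ht₀ : t₀ ∈ s) :
    ContinuousWithinAt (fun p : T × (S × V) => c a p.1 p.2.1) (s ×ˢ univ) (t₀, x₀) :=
  cwa_comp_fst (H.cc a (t₀, x₀.1) ⟨ht₀, mem_univ _⟩)

theorem cww (a : α) (ht₀ : t₀ ∈ s) :
    ContinuousWithinAt (fun p : T × (S × V) => p.2.2 - c a p.1 p.2.1) (s ×ˢ univ) (t₀, x₀) :=
  (continuous_snd.comp continuous_snd).continuousWithinAt.sub (H.cwc a ht₀)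

theorem cAt_h (a : α) (ht₀ : t₀ ∈ s) : CAt s (sheetH c E a) t₀ x₀ := by
  have h1 : ContinuousWithinAt (fun p : T × (S × V) => E a p.1 p.2.1) (s ×ˢ univ) (t₀, x₀) :=
    cwa_comp_fst (H.cE a (t₀, x₀.1) ⟨ht₀, mem_univ _⟩)
  exact h1.sub ((H.cww a ht₀).norm.div_const 2)

theorem cAt_sup (ht₀ : t₀ ∈ s) : CAt s (sheetSup c E) t₀ x₀ :=
  CAt.sup' _ fun a _ => H.cAt_h a ht₀

theorem locLip_w (a : α) (ht₀ : t₀ ∈ s) (hu : x₀.1 ≠ 0) :
    LocLip s (fun t (x : S × V) => x.2 - c a t x.1) t₀ x₀ :=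
  LocLip.sub locLip_snd (H.lc a t₀ ht₀ _ hu).comp_fst

theorem locLip_h (a : α) (ht₀ : t₀ ∈ s) (hu : x₀.1 ≠ 0) : LocLip s (sheetH c E a) t₀ x₀ :=
  LocLip.sub (H.lE a t₀ ht₀ _ hu).comp_fst (H.locLip_w a ht₀ hu).norm_half

theorem hom_h (a : α) : ∀ t ∈ s, ∀ r : ℝ, 0 ≤ r → ∀ x, sheetH c E a t (r • x) =
    r * sheetH c E a t x := by
  intro t ht r hr x
  simp only [sheetH, Prod.smul_fst, Prod.smul_snd]
  rw [H.hE a t ht r hr, H.hc a t ht r hr, ← smul_sub, norm_smul, Real.norm_eq_abs,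
    abs_of_nonneg hr]
  ring

theorem hom_sup : ∀ t ∈ s, ∀ r : ℝ, 0 ≤ r → ∀ x, sheetSup c E t (r • x) =
    r * sheetSup c E t x := by
  intro t ht r hr x
  simp only [sheetSup]
  rw [show (fun a => sheetH c E a t (r • x)) = fun a => r * sheetH c E a t x from
    funext fun a => H.hom_h a t ht r hr x]
  exact (Finset.mul₀_sup' hr _ _ _).symm

theorem fst_ne_zero (ht₀ : t₀ ∈ s) (hx : x₀ ≠ 0) (h0 : 0 ≤ sheetSup c E t₀ x₀) : x₀.1 ≠ 0 := by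
  intro hu
  obtain ⟨a, -, ha⟩ := Finset.exists_mem_eq_sup' (Finset.univ_nonempty (α := α))
    (fun a => sheetH c E a t₀ x₀)
  have h1 : E a t₀ 0 = 0 := by
    have := H.hE a t₀ ht₀ 0 le_rfl 0
    simpa using this
  have h2 : c a t₀ 0 = 0 := by
    have := H.hc a t₀ ht₀ 0 le_rfl 0
    simpa using this
  rw [sheetSup, ha, sheetH, hu, h1, h2, sub_zero] at h0
  have h3 : 0 < ‖x₀.2‖ := by
    rw [norm_pos_iff]; intro h4
    exact hx (Prod.ext hu h4)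
  linarith

omit H in
theorem line_h (a : α) (t : T) (x : S × V) (n : V) (γ : ℝ) :
    sheetH c E a t (x + γ • ((0, n) : S × V)) - sheetH c E a t x =
      -(‖(x.2 - c a t x.1) + γ • n‖ - ‖x.2 - c a t x.1‖) / 2 := by
  simp only [sheetH, Prod.fst_add, Prod.snd_add, Prod.smul_fst, Prod.smul_snd, smul_zero,
    add_zero]
  rw [show x.2 + γ • n - c a t x.1 = x.2 - c a t x.1 + γ • n by abel]
  ring

/-- the fibre direction `ν`: the imaginary part grows -/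
theorem line_β (ht₀ : t₀ ∈ s) (hu : x₀.1 ≠ 0) {a : α} {n : V} (hn : n = ν t₀ x₀.1)
    (him : ∃ U ∈ 𝓝 x₀, ∀ᶠ t in 𝓝[s] t₀, ∀ x ∈ U, β t x = inner ℝ (x.2 - c a t x.1) (ν t x.1)) :
    LineInc s t₀ x₀ ((0, n) : S × V) fun t x γ =>
      3 / 4 * ‖n‖ ^ 2 * γ ^ 2 ≤ γ * (β t (x + γ • ((0, n) : S × V)) - β t x) ∧
        |β t (x + γ • ((0, n) : S × V)) - β t x| ≤ 5 / 4 * ‖n‖ ^ 2 * |γ| := by
  have hn0 : 0 < ‖n‖ := by rw [hn]; exact norm_pos_iff.mpr (H.ν0 t₀ ht₀ _ hu)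
  have h1 : ∃ U ∈ 𝓝 x₀, ∀ᶠ t in 𝓝[s] t₀, ∀ x ∈ U, |inner ℝ n (ν t x.1) - ‖n‖ ^ 2| ≤
      ‖n‖ ^ 2 / 4 := by
    have h2 : ContinuousWithinAt (fun p : T × (S × V) => inner ℝ n (ν p.1 p.2.1))
        (s ×ˢ univ) (t₀, x₀) :=
      ContinuousWithinAt.inner continuousWithinAt_const (cwa_comp_fst (H.cν t₀ ht₀ _ hu))
    have h3 := ev_close (h := fun t (x : S × V) => inner ℝ n (ν t x.1)) h2
      (show 0 < ‖n‖ ^ 2 / 4 by positivity)
    simp only [← hn, real_inner_self_eq_norm_sq] at h3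
    exact h3
  obtain ⟨U, hU, e1⟩ := h1
  obtain ⟨V', hV, e2⟩ := him
  refine ⟨U ∩ V', inter_mem hU hV, ?_⟩
  filter_upwards [e1, e2] with t k1 k2 x hx γ hγ
  have k3 := k1 x hx.1
  have e : β t (x + γ • ((0, n) : S × V)) - β t x = γ * inner ℝ n (ν t x.1) := by
    rw [k2 x hx.2, k2 _ hγ.2]
    simp only [Prod.fst_add, Prod.snd_add, Prod.smul_fst, Prod.smul_snd, smul_zero, add_zero]
    rw [show x.2 + γ • n - c a t x.1 = (x.2 - c a t x.1) + γ • n by abel, inner_add_left,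
      inner_smul_left]
    simp
  rw [abs_le] at k3
  rw [e]
  constructor
  · nlinarith [sq_nonneg γ]
  · rw [abs_mul, mul_comm]
    refine mul_le_mul_of_nonneg_right ?_ (abs_nonneg _)
    rw [abs_le]
    constructor <;> nlinarith [sq_nonneg ‖n‖]

omit H in
theorem _root_.Vale.Agent.P268.T.LocLip.congr' {E' W : Type*} [NormedAddCommGroup E']
    [NormedSpace ℝ E'] [NormedAddCommGroup W]
    {f g : T → E' → W} {y₀ : E'} (hf : LocLip s f t₀ y₀)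
    (h : ∃ U ∈ 𝓝 y₀, ∀ᶠ t in 𝓝[s] t₀, ∀ x ∈ U, g t x = f t x) : LocLip s g t₀ y₀ := by
  obtain ⟨L, U, hU, h1⟩ := hf
  obtain ⟨V', hV, h2⟩ := h
  refine ⟨L, U ∩ V', inter_mem hU hV, ?_⟩
  filter_upwards [h1, h2] with t k1 k2 x hx y hy
  rw [k2 x hx.2, k2 y hy.2]
  exact k1 x hx.1 y hy.1

omit H in
theorem _root_.Vale.Agent.P268.T.LocLip.line {E' W : Type*} [NormedAddCommGroup E']
    [NormedSpace ℝ E'] [NormedAddCommGroup W]
    {f : T → E' → W} {y₀ : E'} (hf : LocLip s f t₀ y₀) (e : E') :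
    ∃ L : ℝ, 0 < L ∧ LineInc s t₀ y₀ e fun t x γ => ‖f t (x + γ • e) - f t x‖ ≤ L * |γ| := by
  obtain ⟨L, U, hU, h⟩ := hf
  refine ⟨|L| * ‖e‖ + 1, by positivity, U, hU, h.mono fun t ht x hx γ hγ => ?_⟩
  refine (ht _ hγ x hx).trans ?_
  rw [add_sub_cancel_left, norm_smul, Real.norm_eq_abs]
  calc L * (|γ| * ‖e‖) ≤ |L| * (|γ| * ‖e‖) := by gcongr; exact le_abs_self L
    _ ≤ (|L| * ‖e‖ + 1) * |γ| := by nlinarith [abs_nonneg γ]

theorem locLip_β (ht₀ : t₀ ∈ s) (hu : x₀.1 ≠ 0) {a : α}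
    (him : ∃ U ∈ 𝓝 x₀, ∀ᶠ t in 𝓝[s] t₀, ∀ x ∈ U, β t x = inner ℝ (x.2 - c a t x.1) (ν t x.1)) :
    LocLip s β t₀ x₀ :=
  (LocLip.inner (H.locLip_w a ht₀ hu) (H.lν t₀ ht₀ _ hu).comp_fst (H.cww a ht₀)
    (cwa_comp_fst (H.cν t₀ ht₀ _ hu))).congr' him

omit H in
theorem exists_active (c : α → T → S → V) (E : α → T → S → ℝ) (t₀ : T) (x₀ : S × V) :
    ∃ a, sheetH c E a t₀ x₀ = sheetSup c E t₀ x₀ := by
  obtain ⟨a, -, ha⟩ := Finset.exists_mem_eq_sup' (Finset.univ_nonempty (α := α))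
    (fun a => sheetH c E a t₀ x₀)
  exact ⟨a, ha.symm⟩

/-- regularity from active sheets -/
theorem regAt_of_active {A : ℂ →L[ℝ] S × V} (ht₀ : t₀ ∈ s)
    (h : ∀ a, sheetH c E a t₀ x₀ = sheetSup c E t₀ x₀ → IncAt s β t₀ x₀ A (sheetH c E a)) :
    RegAt s (sheetFn c E β) t₀ x₀ := by
  refine RegAt.of_incAt (g := sheetSup c E) (IncAt.sup' _ (fun a _ => H.cAt_h a ht₀)
    fun a _ ha => h a (le_antisymm (Finset.le_sup' (fun a => sheetH c E a t₀ x₀)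
      (Finset.mem_univ a)) (Finset.sup'_le _ _ fun b hb => ha b hb)))

theorem regAt_zero (ht₀ : t₀ ∈ s) (hu : x₀.1 ≠ 0) (h0 : sheetSup c E t₀ x₀ = 0)
    (hβ0 : β t₀ x₀ = 0) : RegAt s (sheetFn c E β) t₀ x₀ := by
  obtain ⟨e, κ, hκ, hgr, hor⟩ := H.zero t₀ ht₀ x₀ hu h0 hβ0
  obtain ⟨a₀, ha₀⟩ := exists_active c E t₀ x₀
  have him := fun a (ha : sheetH c E a t₀ x₀ = sheetSup c E t₀ x₀) =>
    H.im t₀ ht₀ x₀ hu h0.ge a ha
  have him0 : ∀ a, sheetH c E a t₀ x₀ = sheetSup c E t₀ x₀ →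
      inner ℝ (x₀.2 - c a t₀ x₀.1) (ν t₀ x₀.1) = 0 := by
    intro a ha
    obtain ⟨U, hU, h1⟩ := him a ha
    rw [← h1.self_of_nhdsWithin ht₀ x₀ (mem_of_mem_nhds hU), hβ0]
  set n : V := ν t₀ x₀.1 with hn
  have hn0 : 0 < ‖n‖ := norm_pos_iff.mpr (H.ν0 t₀ ht₀ _ hu)
  have hne : ((0, n) : S × V) ≠ 0 := by
    intro h; exact (norm_pos_iff.mp hn0) (congrArg Prod.snd h)
  have hβe := H.line_β ht₀ hu hn (him a₀ ha₀)
  obtain ⟨Lβ, hLβ, hβL⟩ := (H.locLip_β ht₀ hu (him a₀ ha₀)).line e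
  set κ₂ : ℝ := 3 / 4 * ‖n‖ ^ 2 with hκ₂
  have hκ₂0 : 0 < κ₂ := by positivity
  obtain ⟨Lh, μ, hLh, hμ, hcond, hline, hβμ⟩ : ∃ Lh μ : ℝ, 0 ≤ Lh ∧ 0 < μ ∧ Lh * μ < κ * κ₂ ∧
      (∀ a, sheetH c E a t₀ x₀ = sheetSup c E t₀ x₀ → LineInc s t₀ x₀ ((0, n) : S × V)
        fun t x γ => |sheetH c E a t (x + γ • ((0, n) : S × V)) - sheetH c E a t x| ≤ Lh * |γ|) ∧
      LineInc s t₀ x₀ e fun t x γ => |β t (x + γ • e) - β t x| ≤ μ * |γ| := by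
    rcases hor with hor | ⟨μ, hμ, hβμ⟩
    · refine ⟨κ * κ₂ / (2 * Lβ), Lβ, by positivity, hLβ, ?_, fun a ha => ?_, hβL⟩
      · have : κ * κ₂ / (2 * Lβ) * Lβ = κ * κ₂ / 2 := by field_simp
        rw [this]; have : 0 < κ * κ₂ := by positivity
        linarith
      · have hw : x₀.2 - c a t₀ x₀.1 ≠ 0 := sub_ne_zero.mpr (hor a (ha.trans h0))
        obtain ⟨ρ, hρ, hρ'⟩ := norm_line_small hw (him0 a ha)
          (L := 2 * (κ * κ₂ / (2 * Lβ))) (by positivity)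
        have h1 : ∃ U ∈ 𝓝 x₀, ∀ᶠ t in 𝓝[s] t₀, ∀ x ∈ U,
            ‖(x.2 - c a t x.1) - (x₀.2 - c a t₀ x₀.1)‖ ≤ ρ := by
          refine ev_prod (Q := fun t (x : S × V) =>
            ‖(x.2 - c a t x.1) - (x₀.2 - c a t₀ x₀.1)‖ ≤ ρ) ?_
          have h2 := ((H.cww a ht₀ (x₀ := x₀)).sub (continuousWithinAt_const
            (b := x₀.2 - c a t₀ x₀.1))).norm
          have h3 := h2.eventually (gt_mem_nhds (show
            ‖(x₀.2 - c a t₀ x₀.1) - (x₀.2 - c a t₀ x₀.1)‖ < ρ by simpa using hρ))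
          exact h3.mono fun z hz => le_of_lt hz
        refine ((LineInc.of_ev (e := ((0, n) : S × V)) h1).and (LineInc.small hne hρ)).mono ?_
        rintro t x γ ⟨⟨k1, -⟩, k2⟩
        rw [line_h]
        have := hρ' _ k1 γ k2
        rw [abs_div, abs_neg, abs_two]
        linarith
    · refine ⟨‖n‖ / 2, max μ (κ * ‖n‖ / 2), by positivity, lt_max_of_lt_right (by positivity), ?_,
        fun a ha => ?_, hβμ.imp fun U h => ⟨h.1, h.2.mono fun t ht x hx γ hγ => ?_⟩⟩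
      · have : max μ (κ * ‖n‖ / 2) ≤ κ * ‖n‖ := max_le hμ.le (by
          have : 0 < κ * ‖n‖ := by positivity
          linarith)
        calc ‖n‖ / 2 * max μ (κ * ‖n‖ / 2) ≤ ‖n‖ / 2 * (κ * ‖n‖) := by gcongr
          _ < κ * κ₂ := by
            rw [hκ₂]
            have : 0 < κ * ‖n‖ ^ 2 := by positivity
            nlinarith
      · refine ⟨univ, univ_mem, Eventually.of_forall fun t x _ γ _ => ?_⟩
        show |sheetH c E a t (x + γ • ((0, n) : S × V)) - sheetH c E a t x| ≤ ‖n‖ / 2 * |γ|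
        rw [line_h, abs_div, abs_neg, abs_two]
        have := norm_line_le (x.2 - c a t x.1) n γ
        linarith
      · exact (ht x hx γ hγ).trans (mul_le_mul_of_nonneg_right (le_max_left _ _) (abs_nonneg _))
  obtain ⟨lam, hlam, hlamc⟩ := exists_lam hμ hLh hcond
  refine H.regAt_of_active (A := dirA lam e (0, n)) ht₀ fun a ha => ?_
  obtain ⟨La, hLa, hhL⟩ := (H.locLip_h a ht₀ hu).line e
  obtain ⟨U, hU, hg⟩ := hgr a (ha.trans h0)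
  have hg' : LineInc s t₀ x₀ e fun t x γ =>
      κ * γ ^ 2 ≤ γ * (sheetH c E a t (x + γ • e) - sheetH c E a t x) :=
    ⟨U, hU, hg.mono fun t ht x hx γ hγ => ht x hx γ hγ⟩
  refine incAt_of_dirs (Λ := La + 5 / 4 * ‖n‖ ^ 2) ht₀ hκ hκ₂0 hLh hμ hlam hlamc ?_ hβμ
    (hline a ha) ?_
  · refine (hg'.and hhL).mono ?_
    rintro t x γ ⟨k1, k2⟩
    refine ⟨k1, ?_⟩
    rw [Real.norm_eq_abs] at k2
    refine k2.trans ?_
    nlinarith [abs_nonneg γ, sq_nonneg ‖n‖, mul_nonneg (sq_nonneg ‖n‖) (abs_nonneg γ)]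
  · refine hβe.mono ?_
    rintro t x γ ⟨k1, k2⟩
    refine ⟨k1, k2.trans ?_⟩
    nlinarith [abs_nonneg γ, mul_nonneg hLa.le (abs_nonneg γ)]

theorem regAt_ne (ht₀ : t₀ ∈ s) (hu : x₀.1 ≠ 0) (hx₀ : x₀ ≠ 0) (h0 : 0 ≤ sheetSup c E t₀ x₀)
    (hne0 : sheetSup c E t₀ x₀ ≠ 0 ∨ β t₀ x₀ ≠ 0) : RegAt s (sheetFn c E β) t₀ x₀ := by
  obtain ⟨a₀, ha₀⟩ := exists_active c E t₀ x₀
  have him := fun a (ha : sheetH c E a t₀ x₀ = sheetSup c E t₀ x₀) =>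
    H.im t₀ ht₀ x₀ hu h0 a ha
  set p : ℝ := sheetSup c E t₀ x₀ with hp
  set q : ℝ := β t₀ x₀ with hq
  have him0 : ∀ a, sheetH c E a t₀ x₀ = p →
      inner ℝ (x₀.2 - c a t₀ x₀.1) (ν t₀ x₀.1) = q := by
    intro a ha
    obtain ⟨U, hU, h1⟩ := him a ha
    rw [← h1.self_of_nhdsWithin ht₀ x₀ (mem_of_mem_nhds hU)]
  set n : V := ν t₀ x₀.1 with hn
  have hn0 : 0 < ‖n‖ := norm_pos_iff.mpr (H.ν0 t₀ ht₀ _ hu)
  have hne : ((0, n) : S × V) ≠ 0 := by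
    intro h; exact (norm_pos_iff.mp hn0) (congrArg Prod.snd h)
  have hpq : 0 < p ^ 2 + q ^ 2 := by
    rcases hne0 with h | h
    · have := sq_pos_of_ne_zero (a := p) h; nlinarith [sq_nonneg q]
    · have := sq_pos_of_ne_zero (a := q) h; nlinarith [sq_nonneg p]
  have hβe := H.line_β ht₀ hu hn (him a₀ ha₀)
  set W : ℝ := ∑ a, ‖x₀.2 - c a t₀ x₀.1‖ with hW
  have hWa : ∀ a, ‖x₀.2 - c a t₀ x₀.1‖ ≤ W := fun a =>
    Finset.single_le_sum (f := fun a => ‖x₀.2 - c a t₀ x₀.1‖) (fun _ _ => norm_nonneg _)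
      (Finset.mem_univ a)
  have hW0 : 0 ≤ W := (norm_nonneg _).trans (hWa a₀)
  set κ₀ : ℝ := p * (3 / 4 * ‖n‖ ^ 2) + q ^ 2 / (8 * (W + 1)) with hκ₀
  have hκ₀0 : 0 < κ₀ := by
    rcases hne0 with h | h
    · have h1 : 0 < p := lt_of_le_of_ne h0 (Ne.symm h)
      have h2 : 0 ≤ q ^ 2 / (8 * (W + 1)) := by positivity
      have h3 : 0 < p * (3 / 4 * ‖n‖ ^ 2) := by positivity
      linarith
    · have h1 := sq_pos_of_ne_zero (a := q) h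
      have h2 : 0 < q ^ 2 / (8 * (W + 1)) := by positivity
      have h3 : 0 ≤ p * (3 / 4 * ‖n‖ ^ 2) := by positivity
      linarith
  set K₀ : ℝ := ‖n‖ / 2 + 5 / 4 * ‖n‖ ^ 2 with hK₀
  refine H.regAt_of_active (A := radA p q (radM κ₀ K₀) x₀ ((0, n) : S × V)) ht₀ fun a ha => ?_
  have hvv : LineInc s t₀ x₀ ((0, n) : S × V) fun t x γ =>
      κ₀ * γ ^ 2 ≤ γ * (p * (β t (x + γ • ((0, n) : S × V)) - β t x) -
        q * (sheetH c E a t (x + γ • ((0, n) : S × V)) - sheetH c E a t x)) ∧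
      |sheetH c E a t (x + γ • ((0, n) : S × V)) - sheetH c E a t x| ≤ K₀ * |γ| ∧
      |β t (x + γ • ((0, n) : S × V)) - β t x| ≤ K₀ * |γ| := by
    have hqq : LineInc s t₀ x₀ ((0, n) : S × V) fun t x γ =>
        q ^ 2 / (8 * (W + 1)) * γ ^ 2 ≤ γ * (-(q *
          (sheetH c E a t (x + γ • ((0, n) : S × V)) - sheetH c E a t x))) := by
      by_cases hq0 : q = 0
      · refine ⟨univ, univ_mem, Eventually.of_forall fun t x _ γ _ => ?_⟩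
        rw [hq0]; simp
      · obtain ⟨ρ, hρ, hρ'⟩ := norm_line_sign (him0 a ha) hq0 (hWa a)
        have h1 : ∃ U ∈ 𝓝 x₀, ∀ᶠ t in 𝓝[s] t₀, ∀ x ∈ U,
            ‖(x.2 - c a t x.1) - (x₀.2 - c a t₀ x₀.1)‖ ≤ ρ := by
          refine ev_prod (Q := fun t (x : S × V) =>
            ‖(x.2 - c a t x.1) - (x₀.2 - c a t₀ x₀.1)‖ ≤ ρ) ?_
          have h2 := ((H.cww a ht₀ (x₀ := x₀)).sub (continuousWithinAt_const
            (b := x₀.2 - c a t₀ x₀.1))).norm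
          have h3 := h2.eventually (gt_mem_nhds (show
            ‖(x₀.2 - c a t₀ x₀.1) - (x₀.2 - c a t₀ x₀.1)‖ < ρ by simpa using hρ))
          exact h3.mono fun z hz => le_of_lt hz
        refine ((LineInc.of_ev (e := ((0, n) : S × V)) h1).and (LineInc.small hne hρ)).mono ?_
        rintro t x γ ⟨⟨k1, -⟩, k2⟩
        rw [line_h]
        have k3 := hρ' _ k1 γ k2
        have k4 : q ^ 2 / (8 * (W + 1)) * γ ^ 2 = (q ^ 2 / (4 * (W + 1)) * γ ^ 2) / 2 := by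
          field_simp; ring
        rw [k4]
        have k5 : γ * (-(q * (-(‖x.2 - c a t x.1 + γ • n‖ - ‖x.2 - c a t x.1‖) / 2))) =
            (q * γ * (‖x.2 - c a t x.1 + γ • n‖ - ‖x.2 - c a t x.1‖)) / 2 := by ring
        rw [k5]
        linarith
    refine (hβe.and hqq).mono ?_
    rintro t x γ ⟨⟨k1, k2⟩, k3⟩
    refine ⟨?_, ?_, ?_⟩
    · have := mul_le_mul_of_nonneg_left k1 h0
      rw [hκ₀]
      nlinarith
    · rw [line_h, abs_div, abs_neg, abs_two, hK₀]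
      have := norm_line_le (x.2 - c a t x.1) n γ
      have h5 : 0 ≤ 5 / 4 * ‖n‖ ^ 2 * |γ| := by positivity
      nlinarith
    · rw [hK₀]
      have h5 : 0 ≤ ‖n‖ / 2 * |γ| := by positivity
      nlinarith
  obtain ⟨U, hU, hfin⟩ := inc2_radial (h := sheetH c E a) (β := β) ht₀ hx₀
    (fun t ht r hr x => H.hom_h a t ht r hr x) (fun t ht r hr x => H.hβ t ht r hr x)
    (H.cAt_h a ht₀) (H.cβ (t₀, x₀) ⟨ht₀, mem_univ _⟩)
    (H.locLip_h a ht₀ hu) (H.locLip_β ht₀ hu (him a₀ ha₀)) ha rfl hκ₀0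
    (show 0 ≤ K₀ by positivity) hpq hvv
  exact ⟨_, radκ_pos hκ₀0 hpq, _, U, hU, hfin⟩

/-- **Family lemma.** -/
theorem hFam : HFam s (sheetFn c E β) where
  cont := by
    have h1 : ContinuousOn (fun p : T × (S × V) => sheetSup c E p.1 p.2) (s ×ˢ univ) :=
      fun p hp => H.cAt_sup (t₀ := p.1) (x₀ := p.2) hp.1
    have h2 : (fun p : T × (S × V) => sheetFn c E β p.1 p.2) = fun p =>
        ((sheetSup c E p.1 p.2 : ℝ) : ℂ) + ((β p.1 p.2 : ℝ) : ℂ) * Complex.I := by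
      funext p
      apply Complex.ext <;> simp [sheetFn]
    rw [h2]
    exact (Complex.continuous_ofReal.comp_continuousOn h1).add
      ((Complex.continuous_ofReal.comp_continuousOn H.cβ).mul continuousOn_const)
  hom := fun t ht r hr x => by
    apply Complex.ext
    · simp [sheetFn, H.hom_sup t ht r hr x]
    · simp [sheetFn, H.hβ t ht r hr x]
  reg := fun t₀ ht₀ x₀ hx₀ h0 => by
    have h0' : 0 ≤ sheetSup c E t₀ x₀ := h0
    have hu := H.fst_ne_zero ht₀ hx₀ h0'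
    by_cases h1 : sheetSup c E t₀ x₀ = 0
    · by_cases h2 : β t₀ x₀ = 0
      · exact H.regAt_zero ht₀ hu h1 h2
      · exact H.regAt_ne ht₀ hu hx₀ h0' (Or.inr h2)
    · exact H.regAt_ne ht₀ hu hx₀ h0' (Or.inl h1)

end SheetSys

end sheets

end Vale.Agent.P268.T
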