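import Vale.Agent.P268.T.K373.Ray6
import Vale.Agent.P268.T.H719.Glue

/-!
# P268, topological half: P1 in the notation of block B3
-/

namespace Vale.Agent.P268.T

open Set Filter Topology
open K372 (phiV)

variable {ι σ : Type} [Fintype ι] [Fintype σ] [Nonempty σ]

theorem imB_eq_bIm (δ : ℝ) (x : EuclideanSpace ℝ ι × EuclideanSpace ℝ ι) :
    K373.imB δ x = bIm δ x := rfl

theorem fatFn_eq_zero_iff (K : σ → ι → ℕ) (δ ε : ℝ)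
    (x : EuclideanSpace ℝ ι × EuclideanSpace ℝ ι) : K373.fatFn δ ε K x = 0 ↔
      (Finset.univ.sup' Finset.univ_nonempty fun k =>
        (2 * ε) * ‖x.1‖ - ‖x.2 - phiV (K k) x.1‖) = 0 ∧ bIm δ x = 0 := by
  have h : (Finset.univ.sup' Finset.univ_nonempty fun k =>
      (2 * ε) * ‖x.1‖ - ‖x.2 - phiV (K k) x.1‖) =
      2 * Finset.univ.sup' Finset.univ_nonempty fun k => K373.fatH K k ε x := by
    rw [Finset.mul₀_sup' zero_le_two]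
    refine congrArg _ (funext fun k => ?_)
    simp only [K373.fatH]
    ring
  rw [h, mul_eq_zero_iff_left two_ne_zero, Complex.ext_iff]
  rfl

variable [Nonempty ι]

theorem fatFn_zero_iff_kF (K : σ → ι → ℕ) {δ ε M s : ℝ} (hM : 0 < M)
    (x : EuclideanSpace ℝ ι × EuclideanSpace ℝ ι) : K373.fatFn δ ε K x = 0 ↔
      kF K δ (2 * ε) M s (2 * ε) 1 (fun k => phiV (K k)) x = 0 := by
  rw [fatFn_eq_zero_iff, kF_eq_zero_iff, kRe_start hM]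

/-- **P1**, in the notation of block B3. -/
theorem veq_fs_kF (K : σ → ι → ℕ) {δ : ℝ} (hδ : 0 < δ) (hδ2 : Fintype.card ι * δ ^ 2 < 1) :
    ∃ ε₀ > 0, ∀ ε' ∈ Ioc 0 ε₀, ∀ ε₁ ∈ Ioc 0 ε₀, ∀ M s : ℝ, 0 < M →
      VEq (FS ε' K) (kF K δ (2 * ε₁) M s (2 * ε₁) 1 fun k => phiV (K k)) := by
  obtain ⟨ε₀, h0, h⟩ := K373.fs_fat K hδ hδ2
  refine ⟨ε₀, h0, fun ε' hε' ε₁ hε₁ M s hM => ?_⟩
  exact (h ε' hε' ε₁ hε₁).toVEq.trans (VEq.of_iff fun x => fatFn_zero_iff_kF K hM x)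

/-- **P1**, nested eventually form. -/
theorem eventually_veq_fs_kF (K : σ → ι → ℕ) {δ : ℝ} (hδ : 0 < δ)
    (hδ2 : Fintype.card ι * δ ^ 2 < 1) :
    ∀ᶠ ε₁ in 𝓝[>] (0 : ℝ), ∀ᶠ ε' in 𝓝[>] (0 : ℝ), ∀ M s : ℝ, 0 < M →
      VEq (FS ε' K) (kF K δ (2 * ε₁) M s (2 * ε₁) 1 fun k => phiV (K k)) := by
  obtain ⟨ε₀, h0, h⟩ := veq_fs_kF K hδ hδ2
  have h1 : ∀ᶠ e in 𝓝[>] (0 : ℝ), e ∈ Ioc 0 ε₀ := Ioc_mem_nhdsGT h0
  filter_upwards [h1] with ε₁ hε₁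
  filter_upwards [h1] with ε' hε' using h ε' hε' ε₁ hε₁

/-- The functions `FS ε K`, for small `ε`, are of class `H`, and any two are equivalent. -/
theorem fs_fs (K : σ → ι → ℕ) : ∃ ε₀ > 0, ∀ ε ∈ Ioc 0 ε₀, ∀ ε' ∈ Ioc 0 ε₀,
    HEqv (FS ε K) (FS ε' K) := by
  exact K373.fs_fs K

end Vale.Agent.P268.T
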