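import Vale.Agent.P268.T.PlatesA
import Vale.Agent.P268.T.Mono2

/-!
# P268, topological half: strongly monotone pairs near a point, closure under `max`, `min`, `sup`
-/

set_option linter.unusedSectionVars false

namespace Vale.Agent.P268.T

open Set Filter Topology

variable {E : Type*} [NormedAddCommGroup E] [NormedSpace ℝ E]
  {T : Type*} [TopologicalSpace T]

theorem Inc2.mono_const {κ κ' K K' : ℝ} {h β : E → ℝ} {A : ℂ →L[ℝ] E} {U : Set E}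
    (H : Inc2 κ K h β A U) (hκ : κ' ≤ κ) (hK : K ≤ K') : Inc2 κ' K' h β A U := by
  intro x hx c hc
  obtain ⟨h1, h2, h3⟩ := H x hx c hc
  exact ⟨(mul_le_mul_of_nonneg_right hκ (by positivity)).trans h1,
    h2.trans (mul_le_mul_of_nonneg_right hK (norm_nonneg _)),
    h3.trans (mul_le_mul_of_nonneg_right hK (norm_nonneg _))⟩

theorem Inc2.of_between {κ K : ℝ} {f g h β : E → ℝ} {A : ℂ →L[ℝ] E} {U : Set E}
    (hf : Inc2 κ K f β A U) (hg : Inc2 κ K g β A U)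
    (hh : ∀ x y, min (f y - f x) (g y - g x) ≤ h y - h x ∧
      h y - h x ≤ max (f y - f x) (g y - g x)) : Inc2 κ K h β A U := by
  intro x hx c hc
  obtain ⟨f1, f2, f3⟩ := hf x hx c hc
  obtain ⟨g1, g2, -⟩ := hg x hx c hc
  obtain ⟨h1, h2⟩ := hh x (x + A c)
  rw [abs_le] at f2 g2
  refine ⟨?_, ?_, f3⟩
  · rcases le_total 0 c.re with h0 | h0
    · rcases min_choice (f (x + A c) - f x) (g (x + A c) - g x) with e | e <;> rw [e] at h1
      · have := mul_le_mul_of_nonneg_right h1 h0; linarith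
      · have := mul_le_mul_of_nonneg_right h1 h0; linarith
    · rcases max_choice (f (x + A c) - f x) (g (x + A c) - g x) with e | e <;> rw [e] at h2
      · have := mul_le_mul_of_nonpos_right h2 h0; linarith
      · have := mul_le_mul_of_nonpos_right h2 h0; linarith
  · rw [abs_le]
    exact ⟨(le_min f2.1 g2.1).trans h1, h2.trans (max_le f2.2 g2.2)⟩

/-- `(g, β)` is strongly monotone along `A` near `(t₀, x₀)`. -/
def IncAt (s : Set T) (β : T → E → ℝ) (t₀ : T) (x₀ : E) (A : ℂ →L[ℝ] E) (g : T → E → ℝ) : Prop :=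
  ∃ κ > 0, ∃ K : ℝ, ∃ U ∈ 𝓝 x₀, ∀ᶠ t in 𝓝[s] t₀, Inc2 κ K (g t) (β t) A U

variable {s : Set T} {β : T → E → ℝ} {t₀ : T} {x₀ : E} {A : ℂ →L[ℝ] E} {g g' : T → E → ℝ}

/-- joint continuity at a point within `s` -/
def CAt (s : Set T) (g : T → E → ℝ) (t₀ : T) (x₀ : E) : Prop :=
  ContinuousWithinAt (fun p : T × E => g p.1 p.2) (s ×ˢ univ) (t₀, x₀)

theorem CAt.max (h : CAt s g t₀ x₀) (h' : CAt s g' t₀ x₀) :
    CAt s (fun t x => Max.max (g t x) (g' t x)) t₀ x₀ := Filter.Tendsto.max h h'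

theorem CAt.min (h : CAt s g t₀ x₀) (h' : CAt s g' t₀ x₀) :
    CAt s (fun t x => Min.min (g t x) (g' t x)) t₀ x₀ := Filter.Tendsto.min h h'

theorem CAt.sub (h : CAt s g t₀ x₀) (h' : CAt s g' t₀ x₀) :
    CAt s (fun t x => g t x - g' t x) t₀ x₀ := ContinuousWithinAt.sub h h'

/-- strict inequalities persist -/
theorem CAt.ev_lt (h : CAt s g t₀ x₀) (h' : CAt s g' t₀ x₀) (hlt : g t₀ x₀ < g' t₀ x₀) :
    ∃ U ∈ 𝓝 x₀, ∀ᶠ t in 𝓝[s] t₀, ∀ x ∈ U, g t x < g' t x :=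
  ev_prod (Filter.Tendsto.eventually_lt h h' hlt)

theorem IncAt.congr (h : IncAt s β t₀ x₀ A g)
    (he : ∃ U ∈ 𝓝 x₀, ∀ᶠ t in 𝓝[s] t₀, ∀ x ∈ U, g t x = g' t x) : IncAt s β t₀ x₀ A g' := by
  obtain ⟨κ, hκ, K, U, hU, h⟩ := h
  obtain ⟨V, hV, he⟩ := he
  refine ⟨κ, hκ, K, U ∩ V, inter_mem hU hV, ?_⟩
  filter_upwards [h, he] with t ht he x hx c hc
  rw [← he x hx.2, ← he _ hc.2]
  exact ht x hx.1 c hc.1

theorem IncAt.max (c : CAt s g t₀ x₀) (c' : CAt s g' t₀ x₀)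
    (h : g' t₀ x₀ ≤ g t₀ x₀ → IncAt s β t₀ x₀ A g)
    (h' : g t₀ x₀ ≤ g' t₀ x₀ → IncAt s β t₀ x₀ A g') :
    IncAt s β t₀ x₀ A (fun t x => Max.max (g t x) (g' t x)) := by
  rcases lt_trichotomy (g t₀ x₀) (g' t₀ x₀) with hlt | heq | hlt
  · refine (h' hlt.le).congr ?_
    obtain ⟨U, hU, he⟩ := c.ev_lt c' hlt
    exact ⟨U, hU, he.mono fun t ht x hx => (max_eq_right (ht x hx).le).symm⟩
  · obtain ⟨κ, hκ, K, U, hU, h1⟩ := h heq.ge
    obtain ⟨κ', hκ', K', U', hU', h2⟩ := h' heq.le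
    refine ⟨Min.min κ κ', lt_min hκ hκ', Max.max K K', U ∩ U', inter_mem hU hU', ?_⟩
    filter_upwards [h1, h2] with t e1 e2
    exact ((e1.mono inter_subset_left).mono_const (min_le_left _ _) (le_max_left _ _)).of_between
      ((e2.mono inter_subset_right).mono_const (min_le_right _ _) (le_max_right _ _))
      fun _ _ => max_incr _ _ _ _
  · refine (h hlt.le).congr ?_
    obtain ⟨U, hU, he⟩ := c'.ev_lt c hlt
    exact ⟨U, hU, he.mono fun t ht x hx => (max_eq_left (ht x hx).le).symm⟩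

theorem IncAt.min (c : CAt s g t₀ x₀) (c' : CAt s g' t₀ x₀)
    (h : g t₀ x₀ ≤ g' t₀ x₀ → IncAt s β t₀ x₀ A g)
    (h' : g' t₀ x₀ ≤ g t₀ x₀ → IncAt s β t₀ x₀ A g') :
    IncAt s β t₀ x₀ A (fun t x => Min.min (g t x) (g' t x)) := by
  rcases lt_trichotomy (g t₀ x₀) (g' t₀ x₀) with hlt | heq | hlt
  · refine (h hlt.le).congr ?_
    obtain ⟨U, hU, he⟩ := c.ev_lt c' hlt
    exact ⟨U, hU, he.mono fun t ht x hx => (min_eq_left (ht x hx).le).symm⟩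
  · obtain ⟨κ, hκ, K, U, hU, h1⟩ := h heq.le
    obtain ⟨κ', hκ', K', U', hU', h2⟩ := h' heq.ge
    refine ⟨Min.min κ κ', lt_min hκ hκ', Max.max K K', U ∩ U', inter_mem hU hU', ?_⟩
    filter_upwards [h1, h2] with t e1 e2
    exact ((e1.mono inter_subset_left).mono_const (min_le_left _ _) (le_max_left _ _)).of_between
      ((e2.mono inter_subset_right).mono_const (min_le_right _ _) (le_max_right _ _))
      fun _ _ => min_incr _ _ _ _
  · refine (h' hlt.le).congr ?_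
    obtain ⟨U, hU, he⟩ := c'.ev_lt c hlt
    exact ⟨U, hU, he.mono fun t ht x hx => (min_eq_right (ht x hx).le).symm⟩

theorem CAt.sup' {σ : Type*} {P : Finset σ} (hP : P.Nonempty) {h : σ → T → E → ℝ}
    (c : ∀ a ∈ P, CAt s (h a) t₀ x₀) : CAt s (fun t x => P.sup' hP fun a => h a t x) t₀ x₀ := by
  classical
  induction hP using Finset.Nonempty.cons_induction with
  | singleton a => simpa using c a (by simp)
  | cons a P ha hP ih =>
    have h1 : CAt s (fun t x => Max.max (h a t x) (P.sup' hP fun a => h a t x)) t₀ x₀ :=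
      (c a (by simp)).max (ih fun b hb => c b (by simp [hb]))
    refine h1.congr (fun p _ => ?_) ?_
    · simp only [Finset.sup'_cons hP]
    · simp only [Finset.sup'_cons hP]

/-- Only the active functions matter for a finite supremum. -/
theorem IncAt.sup' {σ : Type*} {P : Finset σ} (hP : P.Nonempty) {h : σ → T → E → ℝ}
    (c : ∀ a ∈ P, CAt s (h a) t₀ x₀)
    (hh : ∀ a ∈ P, (∀ b ∈ P, h b t₀ x₀ ≤ h a t₀ x₀) → IncAt s β t₀ x₀ A (h a)) :
    IncAt s β t₀ x₀ A (fun t x => P.sup' hP fun a => h a t x) := by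
  classical
  -- strengthen: functions dominated by `v`
  have key : ∀ (Q : Finset σ) (hQ : Q.Nonempty), Q ⊆ P →
      (P.sup' hP fun a => h a t₀ x₀) ≤ (Q.sup' hQ fun a => h a t₀ x₀) →
      IncAt s β t₀ x₀ A (fun t x => Q.sup' hQ fun a => h a t x) := by
    intro Q hQ
    induction hQ using Finset.Nonempty.cons_induction with
    | singleton a =>
      intro hQP hle
      have : IncAt s β t₀ x₀ A (h a) := hh a (hQP (by simp)) fun b hb => by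
        have := (Finset.le_sup' (fun a => h a t₀ x₀) hb).trans hle
        simpa using this
      simpa using this
    | cons a Q ha hQ ih =>
      intro hQP hle
      have h0 : ∀ t x, (Finset.cons a Q ha).sup' (Finset.cons_nonempty ha) (fun a => h a t x) =
          Max.max (h a t x) (Q.sup' hQ fun a => h a t x) := fun t x => Finset.sup'_cons hQ _
      rw [h0] at hle
      have h1 : IncAt s β t₀ x₀ A
          (fun t x => Max.max (h a t x) (Q.sup' hQ fun a => h a t x)) := by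
        refine IncAt.max (c a (hQP (by simp)))
          (CAt.sup' hQ fun b hb => c b (hQP (by simp [hb]))) (fun hle2 => ?_) (fun hle2 => ?_)
        · rw [max_eq_left hle2] at hle
          exact hh a (hQP (by simp)) fun b hb => (Finset.le_sup' (fun a => h a t₀ x₀) hb).trans hle
        · rw [max_eq_right hle2] at hle
          exact ih (fun b hb => hQP (by simp [hb])) hle
      exact h1.congr ⟨univ, univ_mem, Eventually.of_forall fun t x _ => (h0 t x).symm⟩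
  exact key P hP subset_rfl le_rfl

/-- Regularity. -/
theorem RegAt.of_incAt (h : IncAt s β t₀ x₀ A g) :
    RegAt s (fun t x => (⟨g t x, β t x⟩ : ℂ)) t₀ x₀ := by
  obtain ⟨κ, hκ, K, U, hU, h⟩ := h
  refine RegAt.of_monotone (κ := κ) (Λ := 2 * K) hκ A ⟨U, hU, ?_⟩
  filter_upwards [h] with t ht x hx c hc
  obtain ⟨h1, h2, h3⟩ := ht x hx c hc
  have hsub : (⟨g t (x + A c), β t (x + A c)⟩ : ℂ) - ⟨g t x, β t x⟩ =
      ⟨g t (x + A c) - g t x, β t (x + A c) - β t x⟩ := by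
    apply Complex.ext <;> simp
  show _ ≤ inner ℝ ((⟨g t (x + A c), β t (x + A c)⟩ : ℂ) - ⟨g t x, β t x⟩) c ∧
    ‖(⟨g t (x + A c), β t (x + A c)⟩ : ℂ) - ⟨g t x, β t x⟩‖ ≤ _
  rw [hsub, inner_complex]
  refine ⟨h1, (Complex.norm_le_abs_re_add_abs_im _).trans ?_⟩
  simp only
  linarith

/-- Monotonicity of a constant pair as `MonOn`. -/
theorem Inc2.monOn {κ K : ℝ} {h β : E → ℝ} {A : ℂ →L[ℝ] E} {U : Set E} (H : Inc2 κ K h β A U) :
    MonOn κ (2 * K) (fun x => (⟨h x, β x⟩ : ℂ)) A U := by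
  intro x hx c hc
  obtain ⟨h1, h2, h3⟩ := H x hx c hc
  have hsub : (⟨h (x + A c), β (x + A c)⟩ : ℂ) - ⟨h x, β x⟩ =
      ⟨h (x + A c) - h x, β (x + A c) - β x⟩ := by
    apply Complex.ext <;> simp
  show _ ≤ ((⟨h (x + A c), β (x + A c)⟩ : ℂ) - ⟨h x, β x⟩).re * c.re +
    ((⟨h (x + A c), β (x + A c)⟩ : ℂ) - ⟨h x, β x⟩).im * c.im ∧
    ‖(⟨h (x + A c), β (x + A c)⟩ : ℂ) - ⟨h x, β x⟩‖ ≤ _
  rw [hsub]
  refine ⟨h1, (Complex.norm_le_abs_re_add_abs_im _).trans ?_⟩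
  simp only
  linarith

/-! ### Two directions -/

/-- The plane direction `c ↦ lam c.re e₁ + c.im e₂`. -/
noncomputable def dirA (lam : ℝ) (e₁ e₂ : E) : ℂ →L[ℝ] E :=
  (lam • Complex.reCLM).smulRight e₁ + Complex.imCLM.smulRight e₂

theorem dirA_apply (lam : ℝ) (e₁ e₂ : E) (c : ℂ) :
    dirA lam e₁ e₂ c = (lam * c.re) • e₁ + c.im • e₂ := by
  simp [dirA]

/-- Increments along a line. -/
def LineInc (s : Set T) (t₀ : T) (x₀ e : E) (P : T → E → ℝ → Prop) : Prop :=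
  ∃ U ∈ 𝓝 x₀, ∀ᶠ t in 𝓝[s] t₀, ∀ x ∈ U, ∀ γ : ℝ, x + γ • e ∈ U → P t x γ

theorem LineInc.and {e : E} {P Q : T → E → ℝ → Prop} (h : LineInc s t₀ x₀ e P)
    (h' : LineInc s t₀ x₀ e Q) : LineInc s t₀ x₀ e fun t x γ => P t x γ ∧ Q t x γ := by
  obtain ⟨U, hU, h⟩ := h
  obtain ⟨V, hV, h'⟩ := h'
  refine ⟨U ∩ V, inter_mem hU hV, ?_⟩
  filter_upwards [h, h'] with t a b x hx γ hγ
  exact ⟨a x hx.1 γ hγ.1, b x hx.2 γ hγ.2⟩

theorem LineInc.mono {e : E} {P Q : T → E → ℝ → Prop} (h : LineInc s t₀ x₀ e P)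
    (hPQ : ∀ t x γ, P t x γ → Q t x γ) : LineInc s t₀ x₀ e Q := by
  obtain ⟨U, hU, h⟩ := h
  exact ⟨U, hU, h.mono fun t a x hx γ hγ => hPQ t x γ (a x hx γ hγ)⟩

theorem exists_lam {κ₁ κ₂ L μ : ℝ} (hμ : 0 < μ) (hL : 0 ≤ L) (h : L * μ < κ₁ * κ₂) :
    ∃ lam > 0, (L + lam * μ) ^ 2 < 4 * lam * (κ₁ * κ₂) := by
  refine ⟨(2 * (κ₁ * κ₂) - L * μ) / μ ^ 2, ?_, ?_⟩
  · have : 0 ≤ L * μ := by positivity
    apply div_pos _ (by positivity)
    linarith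
  · have e : L + (2 * (κ₁ * κ₂) - L * μ) / μ ^ 2 * μ = 2 * (κ₁ * κ₂) / μ := by
      field_simp; ring
    rw [e]
    have h0 : 0 ≤ L * μ := by positivity
    have h1 : 0 < κ₁ * κ₂ := lt_of_le_of_lt h0 h
    rw [div_pow, show 4 * ((2 * (κ₁ * κ₂) - L * μ) / μ ^ 2) * (κ₁ * κ₂) =
      (4 * (2 * (κ₁ * κ₂) - L * μ) * (κ₁ * κ₂)) / μ ^ 2 by ring]
    rw [div_lt_div_iff_of_pos_right (by positivity)]
    nlinarith

theorem form_pos {κ₁ κ₂ L μ lam : ℝ} (hκ₂ : 0 < κ₂) (hlam : 0 < lam)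
    (h : (L + lam * μ) ^ 2 < 4 * lam * (κ₁ * κ₂)) (hκ₁ : 0 < κ₁) :
    ∃ κ > 0, ∀ a b : ℝ, κ * (a ^ 2 + b ^ 2) ≤
      lam * κ₁ * a ^ 2 + κ₂ * b ^ 2 - (L + lam * μ) * (|a| * |b|) := by
  set p := lam * κ₁ with hp
  set q := κ₂ with hq
  set r := L + lam * μ with hr
  have hp0 : 0 < p := by positivity
  have hD : 0 < 4 * (p * q) - r ^ 2 := by
    have : 4 * lam * (κ₁ * κ₂) = 4 * (p * q) := by rw [hp, hq]; ring
    linarith
  refine ⟨(4 * (p * q) - r ^ 2) / (4 * (p + q)), by positivity, fun a b => ?_⟩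
  have hpq : 0 < p + q := by positivity
  rw [div_mul_eq_mul_div, div_le_iff₀ (by positivity)]
  have e1 : a ^ 2 = |a| ^ 2 := (sq_abs a).symm
  have e2 : b ^ 2 = |b| ^ 2 := (sq_abs b).symm
  rw [e1, e2]
  clear_value p q r
  set u := |a|
  set v := |b|
  nlinarith [sq_nonneg (2 * p * u - r * v), sq_nonneg (2 * q * v - r * u)]

theorem line_independent {e₁ e₂ : E} {κ₁ κ₂ L μ : ℝ} {h β : E → ℝ}
    (hκ₁ : 0 < κ₁) (hκ₂ : 0 < κ₂) (hL : 0 ≤ L) (hLμ : L * μ < κ₁ * κ₂) {U : Set E} (hU : U ∈ 𝓝 x₀)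
    (H1 : ∀ γ : ℝ, x₀ + γ • e₁ ∈ U → κ₁ * γ ^ 2 ≤ γ * (h (x₀ + γ • e₁) - h x₀) ∧
      |β (x₀ + γ • e₁) - β x₀| ≤ μ * |γ|)
    (H2 : ∀ γ : ℝ, x₀ + γ • e₂ ∈ U → |h (x₀ + γ • e₂) - h x₀| ≤ L * |γ| ∧
      κ₂ * γ ^ 2 ≤ γ * (β (x₀ + γ • e₂) - β x₀))
    (a b : ℝ) (hab : a • e₁ + b • e₂ = 0) : a = 0 ∧ b = 0 := by
  have he₂ : e₂ ≠ 0 := by
    rintro rfl
    have h3 := (H2 1 (by rw [smul_zero, add_zero]; exact mem_of_mem_nhds hU)).2
    rw [smul_zero, add_zero, sub_self, mul_zero] at h3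
    linarith
  by_cases ha : a = 0
  · subst ha
    rw [zero_smul, zero_add, smul_eq_zero] at hab
    exact ⟨rfl, hab.resolve_right he₂⟩
  · exfalso
    set r : ℝ := -(b / a) with hr
    have he : e₁ = r • e₂ := by
      have h3 : a • e₁ = -(b • e₂) := by rw [eq_neg_iff_add_eq_zero]; exact hab
      have h4 : e₁ = a⁻¹ • (a • e₁) := by rw [smul_smul, inv_mul_cancel₀ ha, one_smul]
      rw [h4, h3, smul_neg, smul_smul, hr, neg_smul, div_eq_inv_mul]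
    have tend : Tendsto (fun γ : ℝ => x₀ + γ • e₁) (𝓝[>] 0) (𝓝 x₀) := by
      have : Tendsto (fun γ : ℝ => x₀ + γ • e₁) (𝓝 0) (𝓝 (x₀ + (0 : ℝ) • e₁)) :=
        (continuous_const.add (continuous_id.smul continuous_const)).tendsto _
      rw [zero_smul, add_zero] at this
      exact this.mono_left nhdsWithin_le_nhds
    obtain ⟨γ, hγU, hγ0⟩ := ((tend.eventually hU).and self_mem_nhdsWithin).exists
    have hγ0 : 0 < γ := hγ0
    obtain ⟨q1, q2⟩ := H1 γ hγU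
    have hγ' : x₀ + (γ * r) • e₂ = x₀ + γ • e₁ := by rw [he, smul_smul]
    obtain ⟨q3, q4⟩ := H2 (γ * r) (by rw [hγ']; exact hγU)
    rw [hγ'] at q3 q4
    generalize h (x₀ + γ • e₁) - h x₀ = D at q1 q3
    generalize β (x₀ + γ • e₁) - β x₀ = B at q2 q4
    rw [abs_mul, abs_of_pos hγ0] at q3
    rw [abs_of_pos hγ0] at q2
    have r1 : κ₁ ≤ L * |r| := by
      have : κ₁ * γ ≤ D := by
        have : γ * (κ₁ * γ) ≤ γ * D := by
          calc γ * (κ₁ * γ) = κ₁ * γ ^ 2 := by ring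
            _ ≤ γ * D := q1
        exact le_of_mul_le_mul_left this hγ0
      have h5 : κ₁ * γ ≤ (L * |r|) * γ := by
        calc κ₁ * γ ≤ |D| := this.trans (le_abs_self _)
          _ ≤ L * (γ * |r|) := q3
          _ = _ := by ring
      exact le_of_mul_le_mul_right h5 hγ0
    have r2 : κ₂ * |r| ≤ μ := by
      have h5 : κ₂ * (γ * r) ^ 2 ≤ |γ * r| * |B| := q4.trans (by
        rw [← abs_mul]; exact le_abs_self _)
      rw [abs_mul, abs_of_pos hγ0] at h5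
      have hr0 : 0 < |r| := by
        rw [abs_pos]; rintro h6
        rw [h6, abs_zero, mul_zero] at r1
        linarith
      have h6 : (γ * γ * |r|) * (κ₂ * |r|) ≤ (γ * γ * |r|) * μ := by
        calc (γ * γ * |r|) * (κ₂ * |r|) = κ₂ * (γ * r) ^ 2 := by
              rw [mul_pow, ← sq_abs r]; ring
          _ ≤ γ * |r| * |B| := h5
          _ ≤ γ * |r| * (μ * γ) := by gcongr
          _ = _ := by ring
      exact le_of_mul_le_mul_left h6 (by positivity)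
    have : κ₁ * κ₂ ≤ L * μ := by
      calc κ₁ * κ₂ ≤ (L * |r|) * κ₂ := mul_le_mul_of_nonneg_right r1 hκ₂.le
        _ = L * (κ₂ * |r|) := by ring
        _ ≤ L * μ := mul_le_mul_of_nonneg_left r2 hL
    linarith

theorem dirs_alg {κ κ₁ κ₂ L μ Λ lam D1 D2 B1 B2 : ℝ} {c : ℂ} (hlam : 0 < lam) (hL : 0 ≤ L)
    (hμ : 0 < μ)
    (hform : ∀ a b : ℝ, κ * (a ^ 2 + b ^ 2) ≤
      lam * κ₁ * a ^ 2 + κ₂ * b ^ 2 - (L + lam * μ) * (|a| * |b|))
    (p1 : κ₁ * (lam * c.re) ^ 2 ≤ lam * c.re * D1) (p2 : |D1| ≤ Λ * |lam * c.re|)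
    (p3 : |B1| ≤ μ * |lam * c.re|) (p4 : |D2| ≤ L * |c.im|)
    (p5 : κ₂ * c.im ^ 2 ≤ c.im * B2) (p6 : |B2| ≤ Λ * |c.im|) :
    κ * ‖c‖ ^ 2 ≤ (D1 + D2) * c.re + (B1 + B2) * c.im ∧
      |D1 + D2| ≤ (μ * lam + L + lam * |Λ| + |Λ|) * ‖c‖ ∧
      |B1 + B2| ≤ (μ * lam + L + lam * |Λ| + |Λ|) * ‖c‖ := by
  rw [abs_mul, abs_of_pos hlam] at p2 p3
  have hcr : |c.re| ≤ ‖c‖ := Complex.abs_re_le_norm c
  have hci : |c.im| ≤ ‖c‖ := Complex.abs_im_le_norm c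
  have hn : ‖c‖ ^ 2 = c.re ^ 2 + c.im ^ 2 := by
    rw [Complex.sq_norm, Complex.normSq_apply]; ring
  have s1 : lam * κ₁ * c.re ^ 2 ≤ D1 * c.re := by
    have : lam * (lam * κ₁ * c.re ^ 2) ≤ lam * (D1 * c.re) := by
      calc lam * (lam * κ₁ * c.re ^ 2) = κ₁ * (lam * c.re) ^ 2 := by ring
        _ ≤ lam * c.re * D1 := p1
        _ = _ := by ring
    exact le_of_mul_le_mul_left this hlam
  have s2 : -(L * (|c.re| * |c.im|)) ≤ D2 * c.re := by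
    have : |D2 * c.re| ≤ L * |c.im| * |c.re| := by
      rw [abs_mul]; exact mul_le_mul_of_nonneg_right p4 (abs_nonneg _)
    have := (abs_le.mp this).1
    linarith
  have s3 : -(lam * μ * (|c.re| * |c.im|)) ≤ B1 * c.im := by
    have : |B1 * c.im| ≤ μ * (lam * |c.re|) * |c.im| := by
      rw [abs_mul]; exact mul_le_mul_of_nonneg_right p3 (abs_nonneg _)
    have := (abs_le.mp this).1
    linarith
  have hΛ : 0 ≤ |Λ| := abs_nonneg _
  have hΛ' : Λ ≤ |Λ| := le_abs_self Λ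
  refine ⟨?_, ?_, ?_⟩
  · rw [hn]
    have := hform c.re c.im
    linarith
  · refine (abs_add_le _ _).trans ?_
    have t1 : Λ * (lam * |c.re|) ≤ lam * |Λ| * ‖c‖ := by
      calc Λ * (lam * |c.re|) ≤ |Λ| * (lam * ‖c‖) := by gcongr
        _ = _ := by ring
    have t2 : L * |c.im| ≤ L * ‖c‖ := by gcongr
    have t3 : 0 ≤ μ * lam * ‖c‖ := by positivity
    have t4 : 0 ≤ |Λ| * ‖c‖ := by positivity
    linarith
  · refine (abs_add_le _ _).trans ?_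
    have t1 : μ * (lam * |c.re|) ≤ μ * lam * ‖c‖ := by
      calc μ * (lam * |c.re|) ≤ μ * (lam * ‖c‖) := by gcongr
        _ = _ := by ring
    have t2 : Λ * |c.im| ≤ |Λ| * ‖c‖ := by gcongr
    have t3 : 0 ≤ L * ‖c‖ := by positivity
    have t4 : 0 ≤ lam * |Λ| * ‖c‖ := by positivity
    linarith

/-- **Two directions**: along `e₁` the function `h` increases and `β` is Lipschitz with constant
`μ`; along `e₂` the function `β` increases and `h` is Lipschitz with constant `L`. -/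
theorem incAt_of_dirs (ht₀ : t₀ ∈ s) {h : T → E → ℝ} {e₁ e₂ : E} {κ₁ κ₂ L μ Λ lam : ℝ}
    (hκ₁ : 0 < κ₁) (hκ₂ : 0 < κ₂) (hL : 0 ≤ L) (hμ : 0 < μ) (hlam : 0 < lam)
    (hcond : (L + lam * μ) ^ 2 < 4 * lam * (κ₁ * κ₂))
    (h1 : LineInc s t₀ x₀ e₁ fun t x γ => κ₁ * γ ^ 2 ≤ γ * (h t (x + γ • e₁) - h t x) ∧
      |h t (x + γ • e₁) - h t x| ≤ Λ * |γ|)
    (h1' : LineInc s t₀ x₀ e₁ fun t x γ => |β t (x + γ • e₁) - β t x| ≤ μ * |γ|)
    (h2 : LineInc s t₀ x₀ e₂ fun t x γ => |h t (x + γ • e₂) - h t x| ≤ L * |γ|)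
    (h2' : LineInc s t₀ x₀ e₂ fun t x γ => κ₂ * γ ^ 2 ≤ γ * (β t (x + γ • e₂) - β t x) ∧
      |β t (x + γ • e₂) - β t x| ≤ Λ * |γ|) :
    IncAt s β t₀ x₀ (dirA lam e₁ e₂) h := by
  have hLμ : L * μ < κ₁ * κ₂ := by
    have : 4 * lam * (L * μ) ≤ (L + lam * μ) ^ 2 := by nlinarith [sq_nonneg (L - lam * μ)]
    have h3 : 4 * lam * (L * μ) < 4 * lam * (κ₁ * κ₂) := this.trans_lt hcond
    exact lt_of_mul_lt_mul_left h3 (by positivity)
  obtain ⟨κ, hκ, hform⟩ := form_pos hκ₂ hlam hcond hκ₁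
  obtain ⟨U₁, hU₁, H1⟩ := h1.and h1'
  obtain ⟨U₂, hU₂, H2⟩ := h2.and h2'
  have hU : U₁ ∩ U₂ ∈ 𝓝 x₀ := inter_mem hU₁ hU₂
  -- independence
  have hind : ∀ a b : ℝ, a • e₁ + b • e₂ = 0 → a = 0 ∧ b = 0 := by
    have H1' := H1.self_of_nhdsWithin ht₀
    have H2' := H2.self_of_nhdsWithin ht₀
    have hx₀ := mem_of_mem_nhds hU
    refine line_independent (h := h t₀) (β := β t₀) hκ₁ hκ₂ hL hLμ hU (fun γ hγ => ?_)
      (fun γ hγ => ?_)
    · exact ⟨(H1' x₀ hx₀.1 γ hγ.1).1.1, (H1' x₀ hx₀.1 γ hγ.1).2⟩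
    · exact ⟨(H2' x₀ hx₀.2 γ hγ.2).1, (H2' x₀ hx₀.2 γ hγ.2).2.1⟩
  obtain ⟨C, hC, hCb⟩ := exists_coeff_bound hind
  obtain ⟨R, hR, hball⟩ := Metric.mem_nhds_iff.mp hU
  set B : ℝ := 1 + 2 * C * ‖e₁‖ with hB
  have hB1 : 1 ≤ B := by
    have : 0 ≤ 2 * C * ‖e₁‖ := by positivity
    linarith
  refine ⟨κ, hκ, μ * lam + L + lam * |Λ| + |Λ|, Metric.ball x₀ (R / (2 * B)),
    Metric.ball_mem_nhds _ (by positivity), ?_⟩
  filter_upwards [H1, H2] with t K1 K2 x hx c hc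
  rw [dirA_apply] at hc ⊢
  set ρ := R / (2 * B) with hρ
  have hρB : ρ * B = R / 2 := by rw [hρ]; field_simp
  have hρ0 : 0 < ρ := by positivity
  have hρR : ρ < R := by
    have : ρ * 1 ≤ ρ * B := mul_le_mul_of_nonneg_left hB1 hρ0.le
    linarith
  rw [Metric.mem_ball, dist_eq_norm] at hx hc
  have hAc : ‖(lam * c.re) • e₁ + c.im • e₂‖ ≤ 2 * ρ := by
    have e : (lam * c.re) • e₁ + c.im • e₂ =
        (x + ((lam * c.re) • e₁ + c.im • e₂) - x₀) - (x - x₀) := by abel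
    rw [e]
    exact (norm_sub_le _ _).trans (by linarith)
  have hco := (hCb _ _).trans (mul_le_mul_of_nonneg_left hAc hC.le)
  have ha : |lam * c.re| ≤ 2 * C * ρ := by linarith [abs_nonneg c.im]
  have hyx : ‖x + (lam * c.re) • e₁ - x₀‖ < R := by
    have e : x + (lam * c.re) • e₁ - x₀ = (x - x₀) + (lam * c.re) • e₁ := by abel
    rw [e]
    calc ‖(x - x₀) + (lam * c.re) • e₁‖ ≤ ‖x - x₀‖ + ‖(lam * c.re) • e₁‖ := norm_add_le _ _
      _ ≤ ρ + 2 * C * ρ * ‖e₁‖ := by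
        rw [norm_smul, Real.norm_eq_abs]
        exact add_le_add hx.le (mul_le_mul_of_nonneg_right ha (norm_nonneg _))
      _ = ρ * B := by rw [hB]; ring
      _ < R := by rw [hρB]; linarith
  have hxU := hball (by
    rw [Metric.mem_ball, dist_eq_norm]; exact hx.trans hρR : x ∈ Metric.ball x₀ R)
  have hyU := hball (by
    rw [Metric.mem_ball, dist_eq_norm]; exact hyx : x + (lam * c.re) • e₁ ∈ Metric.ball x₀ R)
  have hzU := hball (by
    rw [Metric.mem_ball, dist_eq_norm]; exact hc.trans hρR :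
    x + ((lam * c.re) • e₁ + c.im • e₂) ∈ Metric.ball x₀ R)
  have hz : x + ((lam * c.re) • e₁ + c.im • e₂) = (x + (lam * c.re) • e₁) + c.im • e₂ := by abel
  rw [hz] at hzU ⊢
  obtain ⟨⟨p1, p2⟩, p3⟩ := K1 x hxU.1 (lam * c.re) hyU.1
  obtain ⟨p4, p5, p6⟩ := K2 _ hyU.2 c.im hzU.2
  have := dirs_alg hlam hL hμ hform p1 p2 p3 p4 p5 p6
  simpa only [sub_add_sub_cancel'] using this

end Vale.Agent.P268.T
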