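import Vale.Agent.P268.T.K373.Def
import Vale.Agent.P268.T.K373.FL
import Vale.Agent.P268.T.K372.SheetsV

/-!
# P268, topological half: the functions `tri`, `turn`, `ray`; the fat function
-/

set_option linter.unusedSectionVars false

namespace Vale.Agent.P268.T.K373

open Set Filter Topology Vale.Agent.P268.T.K372

/-! ### The triangle wave -/

theorem tri_eq (k : ℤ) {w : ℝ} (h : |w - k| ≤ 1 / 4) : tri w = w - k := by
  rw [abs_le] at h
  have h1 : Int.fract (w + 1 / 4) = w + 1 / 4 - k := by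
    rw [Int.fract_eq_iff]
    exact ⟨by linarith, by linarith, k, by ring⟩
  rw [tri, h1, abs_of_nonpos (by linarith)]
  ring

theorem abs_tri_le (w : ℝ) : |tri w| ≤ 1 / 4 := by
  have h1 := Int.fract_nonneg (w + 1 / 4)
  have h2 := Int.fract_lt_one (w + 1 / 4)
  have h3 : |Int.fract (w + 1 / 4) - 1 / 2| ≤ 1 / 2 := by
    rw [abs_le]; constructor <;> linarith
  rw [tri, abs_le]
  constructor <;> linarith [abs_nonneg (Int.fract (w + 1 / 4) - 1 / 2)]

theorem continuous_tri : Continuous tri := by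
  have h1 : Continuous ((fun x : ℝ => |x - 1 / 2|) ∘ Int.fract) := by
    refine ContinuousOn.comp_fract'' (Continuous.continuousOn (by fun_prop)) ?_
    norm_num
  have h2 : Continuous fun w : ℝ => 1 / 4 - ((fun x : ℝ => |x - 1 / 2|) ∘ Int.fract) (w + 1 / 4) :=
    continuous_const.sub (h1.comp (by fun_prop))
  exact h2

theorem abs_turn_le (z : ℂ) : |turn z| ≤ |z.re| / 4 := by
  rw [turn, abs_mul]
  have := mul_le_mul_of_nonneg_left (abs_tri_le (z.im / |z.re|)) (abs_nonneg z.re)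
  linarith

theorem continuous_turn : Continuous turn := by
  rw [continuous_iff_continuousAt]
  intro z
  by_cases hz : z.re = 0
  · have h0 : turn z = 0 := by rw [turn, hz, zero_mul]
    rw [ContinuousAt, h0]
    rw [tendsto_zero_iff_abs_tendsto_zero]
    have h1 : Tendsto (fun w : ℂ => |w.re| / 4) (𝓝 z) (𝓝 0) := by
      have : Tendsto (fun w : ℂ => |w.re| / 4) (𝓝 z) (𝓝 (|z.re| / 4)) :=
        (Continuous.tendsto (by fun_prop) z)
      simpa [hz] using this
    exact squeeze_zero (fun w => abs_nonneg _) (fun w => abs_turn_le w) h1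
  · have h1 : ContinuousAt (fun w : ℂ => w.im / |w.re|) z :=
      (Complex.continuous_im.continuousAt).div (Complex.continuous_re.abs.continuousAt)
        (abs_ne_zero.mpr hz)
    exact (Complex.continuous_re.continuousAt).mul (continuous_tri.continuousAt.comp h1)

theorem turn_smul {r : ℝ} (hr : 0 ≤ r) (z : ℂ) : turn (r • z) = r * turn z := by
  rcases hr.eq_or_lt with rfl | h
  · simp [turn]
  · simp only [turn, Complex.smul_re, Complex.smul_im, smul_eq_mul, abs_mul, abs_of_pos h]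
    rw [mul_div_mul_left _ _ h.ne']
    ring

theorem ray_smul {ε : ℝ} {k : ℕ} {r : ℝ} (hr : 0 ≤ r) (z : ℂ) :
    ray ε k (r • z) = r * ray ε k z := by
  simp only [ray, Complex.smul_re, Complex.smul_im, smul_eq_mul]
  have h1 : max (r * z.re) 0 = r * max z.re 0 := by
    rw [mul_max_of_nonneg _ _ hr, mul_zero]
  rw [h1, abs_mul, abs_of_nonneg hr,
    show r * z.im - k * (r * max z.re 0) = r * (z.im - k * max z.re 0) by ring, abs_mul,
    abs_of_nonneg hr]
  ring

/-- near a ray -/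
theorem turn_near {u v : ℝ} (hu : u ≠ 0) (k : ℕ) (h : |v - k * max u 0| ≤ |u| / 4) :
    turn ⟨u, v⟩ = (if 0 < u then 1 else -1) * (v - k * max u 0) := by
  have hua : 0 < |u| := abs_pos.mpr hu
  by_cases h0 : 0 < u
  · rw [if_pos h0, one_mul]
    rw [max_eq_left h0.le, abs_of_pos h0] at *
    have h1 : |v / u - (k : ℤ)| ≤ 1 / 4 := by
      rw [show v / u - ((k : ℤ) : ℝ) = (v - k * u) / u by push_cast; field_simp, abs_div,
        abs_of_pos h0, div_le_iff₀ h0]
      linarith
    show u * tri (v / |u|) = _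
    rw [abs_of_pos h0, tri_eq _ h1]
    push_cast
    field_simp
  · have h0' : u < 0 := lt_of_le_of_ne (not_lt.mp h0) hu
    rw [if_neg h0]
    rw [max_eq_right h0'.le, mul_zero, sub_zero] at *
    rw [abs_of_neg h0'] at *
    have h1 : |v / (-u) - ((0 : ℤ) : ℝ)| ≤ 1 / 4 := by
      rw [Int.cast_zero, sub_zero, abs_div, abs_of_pos hua, div_le_iff₀ hua]
      linarith
    show u * tri (v / |u|) = _
    rw [abs_of_neg h0', tri_eq _ h1]
    push_cast
    field_simp
    ring

variable {ι : Type} [Fintype ι]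


/-- the `j`-th complex coordinate of a point of `V × V` -/
def zc (x : EuclideanSpace ℝ ι × EuclideanSpace ℝ ι) (j : ι) : ℂ := ⟨x.1 j, x.2 j⟩

/-- the weights of the normal -/
noncomputable def mV (δ : ℝ) (u : EuclideanSpace ℝ ι) (j : ι) : ℝ := max (|u j| - δ * ‖u‖) 0 / ‖u‖

/-- the imaginary part with normal `nuV δ` -/
noncomputable def imB (δ : ℝ) (x : EuclideanSpace ℝ ι × EuclideanSpace ℝ ι) : ℝ := ∑ j, mV δ x.1 j * turn (zc x j)

/-- `turnSum` on `V × V` -/
noncomputable def imT (x : EuclideanSpace ℝ ι × EuclideanSpace ℝ ι) : ℝ := ∑ j, turn (zc x j)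

/-- height of a fat sheet -/
noncomputable def fatH {σ : Type} (K : σ → ι → ℕ) (a : σ) (ε : ℝ) (x : EuclideanSpace ℝ ι × EuclideanSpace ℝ ι) : ℝ :=
  ε * ‖x.1‖ - ‖x.2 - phiV (K a) x.1‖ / 2

/-- height of the sum of rays -/
noncomputable def rayH {σ : Type} (K : σ → ι → ℕ) (a : σ) (ε : ℝ) (x : EuclideanSpace ℝ ι × EuclideanSpace ℝ ι) : ℝ :=
  ∑ j, ray ε (K a j) (zc x j)

/-- **The fat function**: Euclidean plates around the sheets `phiV K`, imaginary part with normal
`nuV δ`. -/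
noncomputable def fatFn {σ : Type} [Fintype σ] [Nonempty σ] (δ ε : ℝ) (K : σ → ι → ℕ)
    (x : EuclideanSpace ℝ ι × EuclideanSpace ℝ ι) : ℂ :=
  ⟨Finset.univ.sup' Finset.univ_nonempty fun a => fatH K a ε x, imB δ x⟩

/-- the ray function on `V × V` -/
noncomputable def rayFn {σ : Type} [Fintype σ] [Nonempty σ] (ε : ℝ) (K : σ → ι → ℕ)
    (x : EuclideanSpace ℝ ι × EuclideanSpace ℝ ι) : ℂ :=
  ⟨Finset.univ.sup' Finset.univ_nonempty fun a => rayH K a ε x, imT x⟩

/-! ### Elementary properties -/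

theorem mV_nonneg (δ : ℝ) (u : EuclideanSpace ℝ ι) (j : ι) : 0 ≤ mV δ u j :=
  div_nonneg (le_max_right _ _) (norm_nonneg _)

theorem mV_le_one {δ : ℝ} (hδ : 0 ≤ δ) (u : EuclideanSpace ℝ ι) (j : ι) : mV δ u j ≤ 1 := by
  rcases eq_or_ne u 0 with rfl | hu
  · simp [mV]
  · have hu0 : 0 < ‖u‖ := norm_pos_iff.mpr hu
    rw [mV, div_le_one hu0]
    exact max_le (by nlinarith [abs_apply_le u j, norm_nonneg u]) hu0.le

theorem mV_smul (δ : ℝ) {r : ℝ} (hr : 0 < r) (u : EuclideanSpace ℝ ι) (j : ι) : mV δ (r • u) j = mV δ u j := by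
  rcases eq_or_ne u 0 with rfl | hu
  · simp
  · have hu0 : 0 < ‖u‖ := norm_pos_iff.mpr hu
    simp only [mV, PiLp.smul_apply, smul_eq_mul, norm_smul, Real.norm_eq_abs, abs_mul,
      abs_of_pos hr]
    rw [show r * |u j| - δ * (r * ‖u‖) = r * (|u j| - δ * ‖u‖) by ring]
    have h1 : max (r * (|u j| - δ * ‖u‖)) 0 = r * max (|u j| - δ * ‖u‖) 0 := by
      rw [mul_max_of_nonneg _ _ hr.le, mul_zero]
    rw [h1, mul_div_mul_left _ _ hr.ne']

theorem zc_smul (r : ℝ) (x : EuclideanSpace ℝ ι × EuclideanSpace ℝ ι) (j : ι) : zc (r • x) j = r • zc x j := by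
  apply Complex.ext <;> simp [zc]

theorem continuous_zc (j : ι) : Continuous fun x : EuclideanSpace ℝ ι × EuclideanSpace ℝ ι => zc x j := by
  have h : (fun x : EuclideanSpace ℝ ι × EuclideanSpace ℝ ι => zc x j) = fun x => ((x.1 j : ℝ) : ℂ) + ((x.2 j : ℝ) : ℂ) * Complex.I := by
    funext x; apply Complex.ext <;> simp [zc]
  rw [h]
  fun_prop

theorem imT_smul {r : ℝ} (hr : 0 ≤ r) (x : EuclideanSpace ℝ ι × EuclideanSpace ℝ ι) : imT (r • x) = r * imT x := by
  simp only [imT, zc_smul, turn_smul hr, Finset.mul_sum]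

theorem imB_smul (δ : ℝ) {r : ℝ} (hr : 0 ≤ r) (x : EuclideanSpace ℝ ι × EuclideanSpace ℝ ι) : imB δ (r • x) = r * imB δ x := by
  rcases hr.eq_or_lt with rfl | h
  · simp [imB, turn, zc]
  · simp only [imB, zc_smul, turn_smul hr, Finset.mul_sum, Prod.smul_fst, mV_smul δ h]
    exact Finset.sum_congr rfl fun j _ => by ring

theorem continuous_imT : Continuous (imT : EuclideanSpace ℝ ι × EuclideanSpace ℝ ι → ℝ) :=
  continuous_finset_sum _ fun j _ => continuous_turn.comp (continuous_zc j)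

theorem continuous_imB {δ : ℝ} (hδ : 0 ≤ δ) : Continuous (imB δ : EuclideanSpace ℝ ι × EuclideanSpace ℝ ι → ℝ) := by
  refine continuous_finset_sum _ fun j _ => ?_
  rw [continuous_iff_continuousAt]
  intro x
  rcases eq_or_ne x.1 0 with hx | hx
  · have h0 : mV δ x.1 j * turn (zc x j) = 0 := by
      have : turn (zc x j) = 0 := by simp [turn, zc, hx]
      rw [this, mul_zero]
    rw [ContinuousAt, h0, tendsto_zero_iff_abs_tendsto_zero]
    have h1 : Tendsto (fun y : EuclideanSpace ℝ ι × EuclideanSpace ℝ ι => |y.1 j| / 4) (𝓝 x) (𝓝 0) := by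
      have : Tendsto (fun y : EuclideanSpace ℝ ι × EuclideanSpace ℝ ι => |y.1 j| / 4) (𝓝 x) (𝓝 (|x.1 j| / 4)) :=
        (Continuous.tendsto (by fun_prop) x)
      simpa [hx] using this
    refine squeeze_zero (fun w => abs_nonneg _) (fun w => ?_) h1
    show |mV δ w.1 j * turn (zc w j)| ≤ _
    rw [abs_mul, abs_of_nonneg (mV_nonneg _ _ _)]
    calc mV δ w.1 j * |turn (zc w j)| ≤ 1 * (|(zc w j).re| / 4) :=
          mul_le_mul (mV_le_one hδ _ _) (abs_turn_le _) (abs_nonneg _) zero_le_one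
      _ = |w.1 j| / 4 := by rw [one_mul]; rfl
  · have h1 : ContinuousAt (fun y : EuclideanSpace ℝ ι × EuclideanSpace ℝ ι => mV δ y.1 j) x := by
      refine ContinuousAt.div (Continuous.continuousAt (by fun_prop))
        (Continuous.continuousAt (by fun_prop)) (norm_ne_zero_iff.mpr hx)
    exact h1.mul (continuous_turn.comp (continuous_zc j)).continuousAt

theorem fatH_smul {σ : Type} (K : σ → ι → ℕ) (a : σ) (ε : ℝ) {r : ℝ} (hr : 0 ≤ r) (x : EuclideanSpace ℝ ι × EuclideanSpace ℝ ι) :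
    fatH K a ε (r • x) = r * fatH K a ε x := by
  simp only [fatH, Prod.smul_fst, Prod.smul_snd]
  rw [phiV_smul _ hr, ← smul_sub, norm_smul, norm_smul, Real.norm_eq_abs, abs_of_nonneg hr]
  ring

theorem rayH_smul {σ : Type} (K : σ → ι → ℕ) (a : σ) (ε : ℝ) {r : ℝ} (hr : 0 ≤ r) (x : EuclideanSpace ℝ ι × EuclideanSpace ℝ ι) :
    rayH K a ε (r • x) = r * rayH K a ε x := by
  simp only [rayH, zc_smul, ray_smul hr, Finset.mul_sum]

end Vale.Agent.P268.T.K373
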