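import Vale.Agent.P268.T.K373.Ray1

/-!
# P268, topological half: local structure of the ray functions
-/

set_option linter.unusedSectionVars false

namespace Vale.Agent.P268.T.K373

open Set Filter Topology Vale.Agent.P268.T.K372

variable {ι : Type} [Fintype ι] [DecidableEq ι] {σ : Type}


/-- deviation from the ray `k` in the plane `j` -/
noncomputable def dev (k : ℕ) (x : EuclideanSpace ℝ ι × EuclideanSpace ℝ ι) (j : ι) : ℝ := x.2 j - k * max (x.1 j) 0

/-- sign of the real part -/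
noncomputable def sg (x₀ : EuclideanSpace ℝ ι × EuclideanSpace ℝ ι) (j : ι) : ℝ := if 0 < x₀.1 j then 1 else -1

theorem abs_sg (x₀ : EuclideanSpace ℝ ι × EuclideanSpace ℝ ι) (j : ι) : |sg x₀ j| = 1 := by
  unfold sg; split_ifs <;> simp

theorem sg_mul_sg (x₀ : EuclideanSpace ℝ ι × EuclideanSpace ℝ ι) (j : ι) : sg x₀ j * sg x₀ j = 1 := by
  unfold sg; split_ifs <;> simp

/-- The neighbourhood where the large planes `L` stay close to the rays `k`. -/
def nearSet (x₀ : EuclideanSpace ℝ ι × EuclideanSpace ℝ ι) (L : Finset ι) (k : ι → ℕ) : Set (EuclideanSpace ℝ ι × EuclideanSpace ℝ ι) :=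
  {x | ∀ j ∈ L, 0 < x.1 j * x₀.1 j ∧ |dev (k j) x j| ≤ |x.1 j| / 4}

theorem continuous_dev (k : ℕ) (j : ι) : Continuous fun x : EuclideanSpace ℝ ι × EuclideanSpace ℝ ι => dev k x j := by
  unfold dev
  fun_prop

theorem nearSet_mem {x₀ : EuclideanSpace ℝ ι × EuclideanSpace ℝ ι} {L : Finset ι} {k : ι → ℕ} (h0 : ∀ j ∈ L, x₀.1 j ≠ 0)
    (h : ∀ j ∈ L, |dev (k j) x₀ j| ≤ |x₀.1 j| / 8) : nearSet x₀ L k ∈ 𝓝 x₀ := by
  have h1 : ∀ j ∈ L, ∀ᶠ x in 𝓝 x₀, 0 < x.1 j * x₀.1 j ∧ |dev (k j) x j| ≤ |x.1 j| / 4 := by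
    intro j hj
    have e1 : ∀ᶠ x in 𝓝 x₀, 0 < x.1 j * x₀.1 j := by
      have : Continuous fun x : EuclideanSpace ℝ ι × EuclideanSpace ℝ ι => x.1 j * x₀.1 j := by fun_prop
      refine this.continuousAt.eventually (lt_mem_nhds ?_)
      exact mul_self_pos.mpr (h0 j hj)
    have e2 : ∀ᶠ x in 𝓝 x₀, |dev (k j) x j| < |x.1 j| / 4 := by
      refine (continuous_dev (k j) j).abs.continuousAt.eventually_lt
        (Continuous.continuousAt (by fun_prop)) ?_
      have := abs_pos.mpr (h0 j hj)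
      linarith [h j hj]
    filter_upwards [e1, e2] with x a b using ⟨a, b.le⟩
  have h2 := (Finset.eventually_all L).mpr h1
  exact h2

section near

variable {x₀ x : EuclideanSpace ℝ ι × EuclideanSpace ℝ ι} {L : Finset ι} {k : ι → ℕ}

theorem near_ne (hx : x ∈ nearSet x₀ L k) {j : ι} (hj : j ∈ L) : x.1 j ≠ 0 := by
  intro h
  have := (hx j hj).1
  rw [h, zero_mul] at this
  exact lt_irrefl _ this

theorem near_sg (hx : x ∈ nearSet x₀ L k) {j : ι} (hj : j ∈ L) : 0 < x.1 j ↔ 0 < x₀.1 j := by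
  have := (hx j hj).1
  constructor
  · intro h; exact (mul_pos_iff_of_pos_left h).mp this
  · intro h; exact (mul_pos_iff_of_pos_right h).mp this

theorem near_abs (hx : x ∈ nearSet x₀ L k) {j : ι} (hj : j ∈ L) : |x.1 j| = sg x₀ j * x.1 j := by
  unfold sg
  by_cases h : 0 < x₀.1 j
  · rw [if_pos h, one_mul, abs_of_pos ((near_sg hx hj).mpr h)]
  · rw [if_neg h, abs_of_nonpos (not_lt.mp fun h' => h ((near_sg hx hj).mp h'))]
    ring

theorem near_max (hx : x ∈ nearSet x₀ L k) {j : ι} (hj : j ∈ L) :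
    max (x.1 j) 0 = if 0 < x₀.1 j then x.1 j else 0 := by
  by_cases h : 0 < x₀.1 j
  · rw [if_pos h, max_eq_left ((near_sg hx hj).mpr h).le]
  · rw [if_neg h, max_eq_right (not_lt.mp fun h' => h ((near_sg hx hj).mp h'))]

theorem near_turn (hx : x ∈ nearSet x₀ L k) {j : ι} (hj : j ∈ L) :
    turn (zc x j) = sg x₀ j * dev (k j) x j := by
  have h1 := turn_near (near_ne hx hj) (k j) (hx j hj).2
  rw [zc, h1]
  unfold sg dev
  by_cases h : 0 < x₀.1 j
  · rw [if_pos h, if_pos ((near_sg hx hj).mpr h)]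
  · rw [if_neg h, if_neg (fun h' => h ((near_sg hx hj).mp h'))]

end near

/-- The stretch direction: large planes along their rays. -/
noncomputable def strE (x₀ : EuclideanSpace ℝ ι × EuclideanSpace ℝ ι) (L : Finset ι) (k : ι → ℕ) : EuclideanSpace ℝ ι × EuclideanSpace ℝ ι :=
  (WithLp.toLp 2 fun j => if j ∈ L then x₀.1 j else 0,
    WithLp.toLp 2 fun j => if j ∈ L then k j * max (x₀.1 j) 0 else 0)

theorem strE_fst (x₀ : EuclideanSpace ℝ ι × EuclideanSpace ℝ ι) (L : Finset ι) (k : ι → ℕ) {j : ι} (hj : j ∈ L) :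
    (strE x₀ L k).1 j = x₀.1 j := by
  simp [strE, hj]

theorem strE_snd (x₀ : EuclideanSpace ℝ ι × EuclideanSpace ℝ ι) (L : Finset ι) (k : ι → ℕ) {j : ι} (hj : j ∈ L) :
    (strE x₀ L k).2 j = k j * max (x₀.1 j) 0 := by
  simp [strE, hj]

theorem strE_fst' (x₀ : EuclideanSpace ℝ ι × EuclideanSpace ℝ ι) (L : Finset ι) (k : ι → ℕ) {j : ι} (hj : j ∉ L) :
    (strE x₀ L k).1 j = 0 := by
  simp [strE, hj]

theorem strE_snd' (x₀ : EuclideanSpace ℝ ι × EuclideanSpace ℝ ι) (L : Finset ι) (k : ι → ℕ) {j : ι} (hj : j ∉ L) :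
    (strE x₀ L k).2 j = 0 := by
  simp [strE, hj]

/-- The imaginary direction. -/
noncomputable def imE (x₀ : EuclideanSpace ℝ ι × EuclideanSpace ℝ ι) (j₁ : ι) : EuclideanSpace ℝ ι × EuclideanSpace ℝ ι :=
  (0, EuclideanSpace.single j₁ (sg x₀ j₁))

theorem imE_fst (x₀ : EuclideanSpace ℝ ι × EuclideanSpace ℝ ι) (j₁ j : ι) : (imE x₀ j₁).1 j = 0 := by
  simp [imE]

theorem imE_snd (x₀ : EuclideanSpace ℝ ι × EuclideanSpace ℝ ι) (j₁ : ι) : (imE x₀ j₁).2 j₁ = sg x₀ j₁ := by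
  simp [imE]

theorem imE_snd' (x₀ : EuclideanSpace ℝ ι × EuclideanSpace ℝ ι) {j₁ j : ι} (h : j ≠ j₁) : (imE x₀ j₁).2 j = 0 := by
  simp [imE, h]

section lines

variable {x₀ x : EuclideanSpace ℝ ι × EuclideanSpace ℝ ι} {L : Finset ι} {k : ι → ℕ} {γ : ℝ}

/-- stretching does not change the deviations from the rays `k` on `L` and, for rays which agree
with `k` over the positive planes of `L`, any deviations. -/
theorem str_dev (hx : x ∈ nearSet x₀ L k) (hγ : x + γ • strE x₀ L k ∈ nearSet x₀ L k) (j : ι)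
    {m : ℕ} (hm : j ∈ L → 0 < x₀.1 j → m = k j) :
    dev m (x + γ • strE x₀ L k) j = dev m x j := by
  by_cases hj : j ∈ L
  · unfold dev
    rw [near_max hγ hj, near_max hx hj]
    simp only [Prod.fst_add, Prod.snd_add, Prod.smul_fst, Prod.smul_snd, PiLp.add_apply,
      PiLp.smul_apply, smul_eq_mul, strE_fst x₀ L k hj, strE_snd x₀ L k hj]
    by_cases h : 0 < x₀.1 j
    · rw [hm hj h, if_pos h, if_pos h, max_eq_left h.le]; ring
    · rw [if_neg h, if_neg h, max_eq_right (not_lt.mp h)]; ring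
  · unfold dev
    simp only [Prod.fst_add, Prod.snd_add, Prod.smul_fst, Prod.smul_snd, PiLp.add_apply,
      PiLp.smul_apply, smul_eq_mul, strE_fst' x₀ L k hj, strE_snd' x₀ L k hj, mul_zero, add_zero]

theorem str_abs (hx : x ∈ nearSet x₀ L k) (hγ : x + γ • strE x₀ L k ∈ nearSet x₀ L k) (j : ι) :
    |(x + γ • strE x₀ L k).1 j| = |x.1 j| + (if j ∈ L then γ * |x₀.1 j| else 0) := by
  by_cases hj : j ∈ L
  · rw [if_pos hj, near_abs hγ hj, near_abs hx hj]
    simp only [Prod.fst_add, Prod.smul_fst, PiLp.add_apply, PiLp.smul_apply, smul_eq_mul,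
      strE_fst x₀ L k hj]
    have : |x₀.1 j| = sg x₀ j * x₀.1 j := by
      unfold sg
      by_cases h : 0 < x₀.1 j
      · rw [if_pos h, one_mul, abs_of_pos h]
      · rw [if_neg h, abs_of_nonpos (not_lt.mp h)]; ring
    rw [this]; ring
  · rw [if_neg hj]
    simp only [Prod.fst_add, Prod.smul_fst, PiLp.add_apply, PiLp.smul_apply, smul_eq_mul,
      strE_fst' x₀ L k hj, mul_zero, add_zero]

theorem str_turn (hx : x ∈ nearSet x₀ L k) (hγ : x + γ • strE x₀ L k ∈ nearSet x₀ L k) (j : ι) :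
    turn (zc (x + γ • strE x₀ L k) j) = turn (zc x j) := by
  by_cases hj : j ∈ L
  · rw [near_turn hγ hj, near_turn hx hj, str_dev hx hγ j fun _ _ => rfl]
  · congr 1
    unfold zc
    simp only [Prod.fst_add, Prod.snd_add, Prod.smul_fst, Prod.smul_snd, PiLp.add_apply,
      PiLp.smul_apply, smul_eq_mul, strE_fst' x₀ L k hj, strE_snd' x₀ L k hj, mul_zero, add_zero]

theorem str_imT (hx : x ∈ nearSet x₀ L k) (hγ : x + γ • strE x₀ L k ∈ nearSet x₀ L k) :
    imT (x + γ • strE x₀ L k) = imT x :=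
  Finset.sum_congr rfl fun j _ => str_turn hx hγ j

theorem str_rayH {K : σ → ι → ℕ} {a : σ} (ha : ∀ j ∈ L, 0 < x₀.1 j → K a j = k j) (ε : ℝ)
    (hx : x ∈ nearSet x₀ L k) (hγ : x + γ • strE x₀ L k ∈ nearSet x₀ L k) :
    rayH K a ε (x + γ • strE x₀ L k) = rayH K a ε x + γ * (ε * ∑ j ∈ L, |x₀.1 j|) := by
  have h1 : ∀ j, ray ε (K a j) (zc (x + γ • strE x₀ L k) j) = ray ε (K a j) (zc x j) +
      (if j ∈ L then γ * (ε * |x₀.1 j|) else 0) := by
    intro j
    have e1 : ∀ y : EuclideanSpace ℝ ι × EuclideanSpace ℝ ι, ray ε (K a j) (zc y j) = ε * |y.1 j| - |dev (K a j) y j| / 2 :=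
      fun y => rfl
    rw [e1, e1, str_abs hx hγ j, str_dev hx hγ j fun hj h => ha j hj h]
    split_ifs <;> ring
  unfold rayH
  rw [Finset.sum_congr rfl fun j _ => h1 j, Finset.sum_add_distrib]
  congr 1
  rw [Finset.sum_ite_mem, Finset.univ_inter, ← Finset.mul_sum, ← Finset.mul_sum]

theorem str_fatH {K : σ → ι → ℕ} {a : σ} (ha : ∀ j ∈ L, 0 < x₀.1 j → K a j = k j) (ε : ℝ)
    (hx : x ∈ nearSet x₀ L k) (hγ : x + γ • strE x₀ L k ∈ nearSet x₀ L k) :
    fatH K a ε (x + γ • strE x₀ L k) - fatH K a ε x =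
      ε * (‖x.1 + γ • (strE x₀ L k).1‖ - ‖x.1‖) := by
  have h1 : (x + γ • strE x₀ L k).2 - phiV (K a) (x + γ • strE x₀ L k).1 =
      x.2 - phiV (K a) x.1 := by
    ext j
    have := str_dev hx hγ j (m := K a j) fun hj h => ha j hj h
    unfold dev at this
    simpa [phiV_apply] using this
  unfold fatH
  rw [h1]
  simp only [Prod.fst_add, Prod.smul_fst]
  ring

theorem im_turn {j₁ : ι} (hx : x ∈ nearSet x₀ L k) (hγ : x + γ • imE x₀ j₁ ∈ nearSet x₀ L k)
    (h₁ : j₁ ∈ L) (j : ι) : turn (zc (x + γ • imE x₀ j₁) j) =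
      turn (zc x j) + (if j = j₁ then γ else 0) := by
  by_cases hj : j = j₁
  · subst hj
    rw [if_pos rfl, near_turn hγ h₁, near_turn hx h₁]
    unfold dev
    simp only [Prod.fst_add, Prod.snd_add, Prod.smul_fst, Prod.smul_snd, PiLp.add_apply,
      PiLp.smul_apply, smul_eq_mul, imE_fst, imE_snd, mul_zero, add_zero]
    linear_combination γ * sg_mul_sg x₀ j
  · rw [if_neg hj, add_zero]
    congr 1
    unfold zc
    simp only [Prod.fst_add, Prod.snd_add, Prod.smul_fst, Prod.smul_snd, PiLp.add_apply,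
      PiLp.smul_apply, smul_eq_mul, imE_fst, imE_snd' x₀ hj, mul_zero, add_zero]

theorem im_imT {j₁ : ι} (hx : x ∈ nearSet x₀ L k) (hγ : x + γ • imE x₀ j₁ ∈ nearSet x₀ L k)
    (h₁ : j₁ ∈ L) : imT (x + γ • imE x₀ j₁) - imT x = γ := by
  unfold imT
  rw [Finset.sum_congr rfl fun j _ => im_turn hx hγ h₁ j, Finset.sum_add_distrib]
  simp

theorem im_imB {δ : ℝ} {j₁ : ι} (hx : x ∈ nearSet x₀ L k)
    (hγ : x + γ • imE x₀ j₁ ∈ nearSet x₀ L k) (h₁ : j₁ ∈ L) :
    imB δ (x + γ • imE x₀ j₁) - imB δ x = mV δ x.1 j₁ * γ := by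
  unfold imB
  have h0 : (x + γ • imE x₀ j₁).1 = x.1 := by
    ext j
    simp only [Prod.fst_add, Prod.smul_fst, PiLp.add_apply, PiLp.smul_apply, smul_eq_mul,
      imE_fst, mul_zero, add_zero]
  rw [h0, Finset.sum_congr rfl fun j _ => by rw [im_turn hx hγ h₁ j, mul_add],
    Finset.sum_add_distrib]
  simp

theorem im_fst (x x₀ : EuclideanSpace ℝ ι × EuclideanSpace ℝ ι) (γ : ℝ) (j₁ : ι) : (x + γ • imE x₀ j₁).1 = x.1 := by
  ext j
  simp only [Prod.fst_add, Prod.smul_fst, PiLp.add_apply, PiLp.smul_apply, smul_eq_mul,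
    imE_fst, mul_zero, add_zero]

theorem norm_imE (x₀ : EuclideanSpace ℝ ι × EuclideanSpace ℝ ι) (j₁ : ι) : ‖(imE x₀ j₁).2‖ = 1 := by
  simp only [imE]
  rw [EuclideanSpace.norm_single, Real.norm_eq_abs, abs_sg]

theorem im_fatH {K : σ → ι → ℕ} {a : σ} {ε : ℝ} {j₁ : ι} :
    |fatH K a ε (x + γ • imE x₀ j₁) - fatH K a ε x| ≤ 1 / 2 * |γ| := by
  unfold fatH
  rw [im_fst]
  have h1 : (x + γ • imE x₀ j₁).2 - phiV (K a) x.1 = (x.2 - phiV (K a) x.1) + γ • (imE x₀ j₁).2 := by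
    simp only [Prod.snd_add, Prod.smul_snd]; abel
  rw [h1]
  have h2 := norm_line_le (x.2 - phiV (K a) x.1) (imE x₀ j₁).2 γ
  rw [norm_imE, one_mul] at h2
  rw [abs_le] at h2 ⊢
  constructor <;> linarith [h2.1, h2.2]

theorem im_rayH {K : σ → ι → ℕ} {a : σ} {ε : ℝ} {j₁ : ι} :
    |rayH K a ε (x + γ • imE x₀ j₁) - rayH K a ε x| ≤ 1 / 2 * |γ| := by
  have e1 : ∀ j, ∀ y : EuclideanSpace ℝ ι × EuclideanSpace ℝ ι, ray ε (K a j) (zc y j) = ε * |y.1 j| - |dev (K a j) y j| / 2 :=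
    fun j y => rfl
  have h1 : ∀ j, |ray ε (K a j) (zc (x + γ • imE x₀ j₁) j) - ray ε (K a j) (zc x j)| ≤
      if j = j₁ then 1 / 2 * |γ| else 0 := by
    intro j
    rw [e1, e1, im_fst]
    by_cases hj : j = j₁
    · subst hj
      rw [if_pos rfl]
      have h2 : dev (K a j) (x + γ • imE x₀ j) j - dev (K a j) x j = γ * sg x₀ j := by
        unfold dev
        rw [im_fst]
        simp only [Prod.snd_add, Prod.smul_snd, PiLp.add_apply, PiLp.smul_apply, smul_eq_mul,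
          imE_snd]
        ring
      have h3 := abs_abs_sub_abs_le (dev (K a j) (x + γ • imE x₀ j) j) (dev (K a j) x j)
      rw [h2, abs_mul, abs_sg, mul_one] at h3
      rw [abs_le] at h3 ⊢
      constructor <;> linarith [h3.1, h3.2]
    · rw [if_neg hj]
      have h2 : dev (K a j) (x + γ • imE x₀ j₁) j = dev (K a j) x j := by
        unfold dev
        rw [im_fst]
        simp only [Prod.snd_add, Prod.smul_snd, PiLp.add_apply, PiLp.smul_apply, smul_eq_mul,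
          imE_snd' x₀ hj, mul_zero, add_zero]
      rw [h2]; simp
  unfold rayH
  rw [← Finset.sum_sub_distrib]
  refine (Finset.abs_sum_le_sum_abs _ _).trans ((Finset.sum_le_sum fun j _ => h1 j).trans ?_)
  simp

end lines

end Vale.Agent.P268.T.K373
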