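import Vale.Agent.P268.T.K373.Ray2

/-!
# P268, topological half: ray functions are equivalent to fat functions
-/

set_option linter.unusedSectionVars false

namespace Vale.Agent.P268.T.K373

open Set Filter Topology Vale.Agent.P268.T.K372

/-- positive inner product: the norm grows -/
theorem norm_line_pos {V : Type*} [NormedAddCommGroup V] [InnerProductSpace ℝ V] {w₀ n : V}
    {q : ℝ} (hq : inner ℝ w₀ n = q) (hq0 : 0 < q) :
    ∃ ρ > 0, ∀ w : V, ‖w - w₀‖ ≤ ρ → ∀ γ : ℝ, |γ| ≤ ρ →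
      q / (2 * ‖w₀‖) * γ ^ 2 ≤ γ * (‖w + γ • n‖ - ‖w‖) := by
  have hw0 : 0 < ‖w₀‖ := by
    rw [norm_pos_iff]; rintro rfl; rw [inner_zero_left] at hq; exact hq0.ne hq
  set C := 2 * (2 * ‖n‖ + ‖n‖ ^ 2 + 1) with hC
  have hC0 : 0 < C := by positivity
  set D := 4 * (1 + ‖n‖) with hD
  have hD0 : 0 < D := by positivity
  refine ⟨min (‖w₀‖ / D) (q / C), by positivity, fun w hw1 γ hγ => ?_⟩
  set ρ := min (‖w₀‖ / D) (q / C) with hρ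
  have hρ0 : 0 ≤ ρ := (abs_nonneg _).trans hγ
  have hρ1 : ρ * D ≤ ‖w₀‖ := by
    have := min_le_left (‖w₀‖ / D) (q / C)
    rwa [← hρ, le_div_iff₀ hD0] at this
  have hρ2 : ρ * C ≤ q := by
    have := min_le_right (‖w₀‖ / D) (q / C)
    rwa [← hρ, le_div_iff₀ hC0] at this
  have hwW : ‖w‖ ≤ ‖w₀‖ + ρ := by
    have := norm_sub_norm_le w w₀
    linarith
  have hwL : ‖w₀‖ - ρ ≤ ‖w‖ := by
    have := norm_sub_norm_le w₀ w
    rw [norm_sub_rev] at this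
    linarith
  have h1 : ‖w + γ • n‖ ≤ ‖w‖ + ρ * ‖n‖ := by
    refine (norm_add_le _ _).trans ?_
    rw [norm_smul, Real.norm_eq_abs]
    gcongr
  have hρn : 0 ≤ ρ * ‖n‖ := by positivity
  have hDe : ρ * D = 4 * ρ + 4 * (ρ * ‖n‖) := by rw [hD]; ring
  have hsum : ‖w + γ • n‖ + ‖w‖ ≤ 3 * ‖w₀‖ := by linarith
  have hspos : 0 < ‖w + γ • n‖ + ‖w‖ := by
    have := norm_nonneg (w + γ • n)
    linarith
  have hin : |inner ℝ w n - q| ≤ ρ * ‖n‖ := by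
    have h1 : inner ℝ w n - q = inner ℝ (w - w₀) n := by rw [inner_sub_left, hq]
    rw [h1]
    exact (abs_real_inner_le_norm _ _).trans (mul_le_mul_of_nonneg_right hw1 (norm_nonneg _))
  have hid := norm_line w n γ
  have hnum : 3 / 2 * q ≤ 2 * inner ℝ w n + γ * ‖n‖ ^ 2 := by
    have e1 := (abs_le.mp hin).1
    have e2 : -(ρ * ‖n‖ ^ 2) ≤ γ * ‖n‖ ^ 2 := by
      have : |γ * ‖n‖ ^ 2| ≤ ρ * ‖n‖ ^ 2 := by
        rw [abs_mul, abs_of_nonneg (sq_nonneg ‖n‖)]; gcongr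
      exact (abs_le.mp this).1
    have e3 : ρ * C = 2 * (2 * (ρ * ‖n‖) + ρ * ‖n‖ ^ 2 + ρ) := by rw [hC]; ring
    linarith
  have key : γ ^ 2 * (3 / 2 * q) ≤ γ * (‖w + γ • n‖ - ‖w‖) * (‖w + γ • n‖ + ‖w‖) := by
    have : γ * (‖w + γ • n‖ - ‖w‖) * (‖w + γ • n‖ + ‖w‖) =
        γ ^ 2 * (2 * inner ℝ w n + γ * ‖n‖ ^ 2) := by
      rw [mul_assoc, hid]; ring
    rw [this]
    exact mul_le_mul_of_nonneg_left hnum (sq_nonneg γ)
  set Y := γ * (‖w + γ • n‖ - ‖w‖) with hY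
  have hY0 : 0 ≤ Y := by
    by_contra hneg
    push Not at hneg
    have : Y * (‖w + γ • n‖ + ‖w‖) < 0 := mul_neg_of_neg_of_pos hneg hspos
    have h0 : 0 ≤ γ ^ 2 * (3 / 2 * q) := by positivity
    linarith
  have h4 : γ ^ 2 * (3 / 2 * q) ≤ Y * (3 * ‖w₀‖) := key.trans (mul_le_mul_of_nonneg_left hsum hY0)
  rw [div_mul_eq_mul_div, div_le_iff₀ (by positivity)]
  nlinarith

variable {ι : Type} [Fintype ι] [DecidableEq ι] {σ : Type}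

/-! ### The weights along the stretch direction -/

theorem mV_eq {δ : ℝ} {u : EuclideanSpace ℝ ι} (hu : u ≠ 0) (j : ι) :
    mV δ u j = max (|u j| / ‖u‖ - δ) 0 := by
  have hu0 : 0 < ‖u‖ := norm_pos_iff.mpr hu
  rw [mV, show |u j| / ‖u‖ - δ = (|u j| - δ * ‖u‖) / ‖u‖ by field_simp]
  rw [div_eq_mul_inv, div_eq_mul_inv, max_mul_of_nonneg _ _ (inv_nonneg.mpr hu0.le), zero_mul]

theorem abs_mV_sub_le {δ : ℝ} {u w : EuclideanSpace ℝ ι} (hu : u ≠ 0) (hw : w ≠ 0) (j : ι) :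
    |mV δ u j - mV δ w j| ≤ |(|u j| / ‖u‖) - (|w j| / ‖w‖)| := by
  rw [mV_eq hu, mV_eq hw]
  refine (abs_max_sub_max_le_abs _ _ _).trans ?_
  rw [show |u j| / ‖u‖ - δ - (|w j| / ‖w‖ - δ) = |u j| / ‖u‖ - |w j| / ‖w‖ by ring]

/-- the quotient of increments of `|u j| / ‖u‖` -/
noncomputable def quo (a₀ : ℝ) (e : EuclideanSpace ℝ ι) (j : ι)
    (p : EuclideanSpace ℝ ι × ℝ) : ℝ :=
  (a₀ * ‖p.1‖ - |p.1 j| * ((2 * inner ℝ p.1 e + p.2 * ‖e‖ ^ 2) / (‖p.1 + p.2 • e‖ + ‖p.1‖))) /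
    (‖p.1 + p.2 • e‖ * ‖p.1‖)

theorem quo_spec {a₀ : ℝ} {e u : EuclideanSpace ℝ ι} {j : ι} {γ : ℝ} (hu : u ≠ 0)
    (hue : u + γ • e ≠ 0) (h : |(u + γ • e) j| = |u j| + γ * a₀) :
    |(u + γ • e) j| / ‖u + γ • e‖ - |u j| / ‖u‖ = γ * quo a₀ e j (u, γ) := by
  have h1 : 0 < ‖u‖ := norm_pos_iff.mpr hu
  have h2 : 0 < ‖u + γ • e‖ := norm_pos_iff.mpr hue
  have h3 := norm_line u e γ
  have h4 : (2 * inner ℝ u e + γ * ‖e‖ ^ 2) / (‖u + γ • e‖ + ‖u‖) * γ = ‖u + γ • e‖ - ‖u‖ := by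
    rw [div_mul_eq_mul_div, div_eq_iff (by positivity), h3]
    ring
  rw [h]
  simp only [quo]
  rw [div_sub_div _ _ h2.ne' h1.ne', mul_div_assoc']
  congr 1
  calc (|u j| + γ * a₀) * ‖u‖ - ‖u + γ • e‖ * |u j|
      = γ * a₀ * ‖u‖ - |u j| * (‖u + γ • e‖ - ‖u‖) := by ring
    _ = _ := by rw [← h4]; ring

theorem quo_continuousAt {a₀ : ℝ} {e u₀ : EuclideanSpace ℝ ι} {j : ι} (hu : u₀ ≠ 0) :
    ContinuousAt (quo a₀ e j) (u₀, 0) := by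
  have h1 : 0 < ‖u₀‖ := norm_pos_iff.mpr hu
  unfold quo
  refine ContinuousAt.div ?_ (Continuous.continuousAt (by fun_prop)) ?_
  · refine ContinuousAt.sub (Continuous.continuousAt (by fun_prop)) ?_
    refine ContinuousAt.mul (Continuous.continuousAt (by fun_prop)) ?_
    refine ContinuousAt.div (Continuous.continuousAt (by fun_prop))
      (Continuous.continuousAt (by fun_prop)) ?_
    simp only [zero_smul, add_zero]
    positivity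
  · simp only [zero_smul, add_zero]
    positivity

theorem quo_zero {a₀ : ℝ} {e u₀ : EuclideanSpace ℝ ι} {j : ι} (hu : u₀ ≠ 0)
    (he : inner ℝ u₀ e = ‖e‖ ^ 2) (ha : |u₀ j| = a₀) :
    quo a₀ e j (u₀, 0) = a₀ / ‖u₀‖ * ((‖u₀‖ ^ 2 - ‖e‖ ^ 2) / ‖u₀‖ ^ 2) := by
  have h1 : 0 < ‖u₀‖ := norm_pos_iff.mpr hu
  simp only [quo, zero_smul, add_zero, zero_mul, he, ha]
  field_simp
  ring

/-! ### Active indices -/

section active

variable (K : σ → ι → ℕ) (x₀ : EuclideanSpace ℝ ι × EuclideanSpace ℝ ι)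

theorem abs_dev_le (a : σ) (j : ι) : |dev (K a j) x₀ j| ≤ ‖x₀.2 - phiV (K a) x₀.1‖ := by
  have := abs_apply_le (x₀.2 - phiV (K a) x₀.1) j
  simpa [dev, phiV_apply] using this

theorem norm_le_sum_dev (a : σ) : ‖x₀.2 - phiV (K a) x₀.1‖ ≤ ∑ j, |dev (K a j) x₀ j| := by
  have h1 : ‖x₀.2 - phiV (K a) x₀.1‖ ^ 2 ≤ (∑ j, |dev (K a j) x₀ j|) ^ 2 := by
    rw [norm_sq_eq]
    have h2 : ∑ j, (x₀.2 - phiV (K a) x₀.1) j ^ 2 = ∑ j, |dev (K a j) x₀ j| ^ 2 := by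
      refine Finset.sum_congr rfl fun j _ => ?_
      rw [sq_abs]
      simp [dev, phiV_apply]
    rw [h2]
    exact Finset.sum_sq_le_sq_sum_of_nonneg fun j _ => abs_nonneg _
  exact abs_le_of_sq_le_sq' h1 (Finset.sum_nonneg fun j _ => abs_nonneg _) |>.2

theorem sum_dev_le (a : σ) : ∑ j, |dev (K a j) x₀ j| ≤
    Fintype.card ι * ‖x₀.2 - phiV (K a) x₀.1‖ := by
  calc ∑ j, |dev (K a j) x₀ j| ≤ ∑ _j : ι, ‖x₀.2 - phiV (K a) x₀.1‖ :=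
        Finset.sum_le_sum fun j _ => abs_dev_le K x₀ a j
    _ = _ := by simp

theorem sum_abs_le : ∑ j, |x₀.1 j| ≤ Fintype.card ι * ‖x₀.1‖ := by
  calc ∑ j, |x₀.1 j| ≤ ∑ _j : ι, ‖x₀.1‖ := Finset.sum_le_sum fun j _ => abs_apply_le _ j
    _ = _ := by simp

theorem rayH_eq (a : σ) (ε : ℝ) (x : EuclideanSpace ℝ ι × EuclideanSpace ℝ ι) :
    rayH K a ε x = ε * ∑ j, |x.1 j| - (∑ j, |dev (K a j) x j|) / 2 := by
  unfold rayH
  rw [Finset.mul_sum, Finset.sum_div, ← Finset.sum_sub_distrib]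
  rfl

end active

end Vale.Agent.P268.T.K373
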