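import Vale.Agent.P268.T.K373.Ray3

/-!
# P268, topological half: ray functions are equivalent to fat functions (end)
-/

set_option linter.unusedSectionVars false

namespace Vale.Agent.P268.T.K373

open Set Filter Topology Vale.Agent.P268.T.K372

variable {ι : Type} [Fintype ι] [DecidableEq ι] {σ : Type} [Fintype σ] [Nonempty σ]

/-- the real part of the ray function -/
noncomputable def raySupV (K : σ → ι → ℕ) (ε : ℝ) (x : EuclideanSpace ℝ ι × EuclideanSpace ℝ ι) :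
    ℝ := Finset.univ.sup' Finset.univ_nonempty fun a => rayH K a ε x

/-- the real part of the fat function -/
noncomputable def fatSupV (K : σ → ι → ℕ) (ε : ℝ) (x : EuclideanSpace ℝ ι × EuclideanSpace ℝ ι) :
    ℝ := Finset.univ.sup' Finset.univ_nonempty fun a => fatH K a ε x

variable {K : σ → ι → ℕ} {ε : ℝ} {x₀ : EuclideanSpace ℝ ι × EuclideanSpace ℝ ι}

theorem exists_active_ray (K : σ → ι → ℕ) (ε : ℝ)
    (x₀ : EuclideanSpace ℝ ι × EuclideanSpace ℝ ι) : ∃ a, rayH K a ε x₀ = raySupV K ε x₀ := by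
  obtain ⟨a, -, ha⟩ := Finset.exists_mem_eq_sup' (Finset.univ_nonempty (α := σ))
    (fun a => rayH K a ε x₀)
  exact ⟨a, ha.symm⟩

theorem exists_active_fat (K : σ → ι → ℕ) (ε : ℝ)
    (x₀ : EuclideanSpace ℝ ι × EuclideanSpace ℝ ι) : ∃ a, fatH K a ε x₀ = fatSupV K ε x₀ := by
  obtain ⟨a, -, ha⟩ := Finset.exists_mem_eq_sup' (Finset.univ_nonempty (α := σ))
    (fun a => fatH K a ε x₀)
  exact ⟨a, ha.symm⟩

theorem le_raySupV (a : σ) : rayH K a ε x₀ ≤ raySupV K ε x₀ :=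
  Finset.le_sup' (fun a => rayH K a ε x₀) (Finset.mem_univ a)

theorem le_fatSupV (a : σ) : fatH K a ε x₀ ≤ fatSupV K ε x₀ :=
  Finset.le_sup' (fun a => fatH K a ε x₀) (Finset.mem_univ a)

/-- All active sheets of both functions pass close to `x₀`. -/
theorem active_bound (hε : 0 < ε) (h : 0 ≤ raySupV K ε x₀ ∨ 0 ≤ fatSupV K ε x₀) :
    (∀ a, rayH K a ε x₀ = raySupV K ε x₀ →
      ∀ j, |dev (K a j) x₀ j| ≤ 4 * (Fintype.card ι + 1) * ε * ‖x₀.1‖) ∧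
    (∀ a, fatH K a ε x₀ = fatSupV K ε x₀ →
      ∀ j, |dev (K a j) x₀ j| ≤ 4 * (Fintype.card ι + 1) * ε * ‖x₀.1‖) := by
  set N : ℝ := (Fintype.card ι : ℝ) with hN
  have hN0 : 0 ≤ N := Nat.cast_nonneg _
  set R := ‖x₀.1‖ with hR
  have hR0 : 0 ≤ R := norm_nonneg _
  have hS := sum_abs_le x₀
  rw [← hN, ← hR] at hS
  have hS0 : 0 ≤ ∑ j, |x₀.1 j| := Finset.sum_nonneg fun j _ => abs_nonneg _
  have hεR : 0 ≤ ε * R := by positivity
  have hεNR : 0 ≤ ε * (N * R) := by positivity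
  have hεS : ε * ∑ j, |x₀.1 j| ≤ ε * (N * R) := mul_le_mul_of_nonneg_left hS hε.le
  have e0 : 4 * (N + 1) * ε * R = 4 * (ε * (N * R)) + 4 * (ε * R) := by ring
  have hlow : -(ε * (N * R)) ≤ raySupV K ε x₀ ∧ -(ε * (N * R)) ≤ fatSupV K ε x₀ := by
    rcases h with h | h
    · obtain ⟨a, ha⟩ := exists_active_ray K ε x₀
      refine ⟨by linarith, le_trans ?_ (le_fatSupV a)⟩
      have h1 := rayH_eq K a ε x₀
      rw [ha] at h1
      have h2 := norm_le_sum_dev K x₀ a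
      rw [fatH, ← hR]
      linarith
    · obtain ⟨a, ha⟩ := exists_active_fat K ε x₀
      refine ⟨le_trans ?_ (le_raySupV a), by linarith⟩
      have h1 := sum_dev_le K x₀ a
      rw [← hN] at h1
      rw [rayH_eq K a ε x₀]
      rw [fatH, ← hR] at ha
      have h3 : ‖x₀.2 - phiV (K a) x₀.1‖ ≤ 2 * (ε * R) := by linarith
      have h4 : N * ‖x₀.2 - phiV (K a) x₀.1‖ ≤ N * (2 * (ε * R)) :=
        mul_le_mul_of_nonneg_left h3 hN0
      have h5 : 0 ≤ ε * ∑ j, |x₀.1 j| := by positivity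
      have h6 : N * (2 * (ε * R)) = 2 * (ε * (N * R)) := by ring
      linarith
  constructor
  · intro a ha j
    have h1 := rayH_eq K a ε x₀
    rw [ha] at h1
    have h2 : |dev (K a j) x₀ j| ≤ ∑ j, |dev (K a j) x₀ j| :=
      Finset.single_le_sum (f := fun j => |dev (K a j) x₀ j|) (fun _ _ => abs_nonneg _)
        (Finset.mem_univ j)
    rw [e0]
    linarith [hlow.1]
  · intro a ha j
    have h2 := abs_dev_le K x₀ a j
    rw [fatH, ← hR] at ha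
    rw [e0]
    linarith [hlow.2]

theorem fst_ne_zero_of_nonneg (hx : x₀ ≠ 0)
    (h : 0 ≤ raySupV K ε x₀ ∨ 0 ≤ fatSupV K ε x₀) : x₀.1 ≠ 0 := by
  intro hu
  have key : ∀ a : σ, ∑ j, |dev (K a j) x₀ j| ≤ 0 → False := by
    intro a ha
    apply hx
    refine Prod.ext hu ?_
    ext j
    have h1 : |dev (K a j) x₀ j| ≤ 0 :=
      (Finset.single_le_sum (f := fun j => |dev (K a j) x₀ j|) (fun _ _ => abs_nonneg _)
        (Finset.mem_univ j)).trans ha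
    have h2 := abs_nonpos_iff.mp h1
    simpa [dev, hu] using h2
  rcases h with h | h
  · obtain ⟨a, ha⟩ := exists_active_ray K ε x₀
    refine key a ?_
    rw [← ha, rayH_eq K a ε x₀, hu] at h
    simp only [PiLp.zero_apply, abs_zero, Finset.sum_const_zero, mul_zero, zero_sub] at h
    linarith
  · obtain ⟨a, ha⟩ := exists_active_fat K ε x₀
    refine key a ?_
    rw [← ha, fatH, hu, norm_zero, mul_zero, zero_sub, ← hu] at h
    have h1 : ‖x₀.2 - phiV (K a) x₀.1‖ ≤ 0 := by linarith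
    have h2 := sum_dev_le K x₀ a
    have h3 : (Fintype.card ι : ℝ) * ‖x₀.2 - phiV (K a) x₀.1‖ ≤ 0 :=
      mul_nonpos_of_nonneg_of_nonpos (Nat.cast_nonneg _) h1
    linarith

/-- The local data at a point. -/
structure LocData (K : σ → ι → ℕ) (δ δ₂ ρ : ℝ) (x₀ : EuclideanSpace ℝ ι × EuclideanSpace ℝ ι)
    (L : Finset ι) (k : ι → ℕ) (j₁ : ι) : Prop where
  memL : ∀ j, j ∈ L ↔ 16 * ρ * ‖x₀.1‖ ≤ |x₀.1 j|
  u0 : x₀.1 ≠ 0
  ρ0 : 0 < ρ
  ρδ : 16 * ρ < δ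
  j₁L : j₁ ∈ L
  j₁b : δ₂ * ‖x₀.1‖ < |x₀.1 j₁|
  near : nearSet x₀ L k ∈ 𝓝 x₀
  dev : ∀ j ∈ L, |dev (k j) x₀ j| ≤ ρ * ‖x₀.1‖
  act : ∀ a, (∀ j, |Vale.Agent.P268.T.K373.dev (K a j) x₀ j| ≤ ρ * ‖x₀.1‖) →
    ∀ j ∈ L, 0 < x₀.1 j → K a j = k j

theorem exists_locData {δ δ₂ ρ : ℝ} (hρ : 0 < ρ) (hρδ : 16 * ρ < δ) (hδδ : δ < δ₂)
    (hδ : Fintype.card ι * δ₂ ^ 2 < 1) (hu : x₀.1 ≠ 0) {a₀ : σ}
    (ha₀ : ∀ j, |dev (K a₀ j) x₀ j| ≤ ρ * ‖x₀.1‖) :
    ∃ (L : Finset ι) (k : ι → ℕ) (j₁ : ι), LocData K δ δ₂ ρ x₀ L k j₁ := by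
  have hR : 0 < ‖x₀.1‖ := norm_pos_iff.mpr hu
  obtain ⟨j₁, hj₁⟩ := exists_abs_gt hδ hu
  set L : Finset ι := Finset.univ.filter fun j => 16 * ρ * ‖x₀.1‖ ≤ |x₀.1 j| with hL
  have memL : ∀ j, j ∈ L ↔ 16 * ρ * ‖x₀.1‖ ≤ |x₀.1 j| := fun j => by simp [hL]
  refine ⟨L, K a₀, j₁, memL, hu, hρ, hρδ, ?_, hj₁, ?_, fun j _ => ha₀ j, fun a ha j hj h0 => ?_⟩
  · rw [memL]
    have : 16 * ρ * ‖x₀.1‖ ≤ δ₂ * ‖x₀.1‖ := by gcongr; linarith
    linarith
  · refine nearSet_mem (fun j hj => ?_) fun j hj => ?_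
    · have := (memL j).mp hj
      have h1 : 0 < |x₀.1 j| := lt_of_lt_of_le (by positivity) this
      exact abs_pos.mp h1
    · have := (memL j).mp hj
      have h2 := ha₀ j
      have h3 : 0 ≤ |x₀.1 j| := abs_nonneg _
      linarith
  · by_contra hne
    have h1 := ha j
    have h2 := ha₀ j
    have h3 := (memL j).mp hj
    rw [abs_of_pos h0] at h3
    have h4 : dev (K a₀ j) x₀ j - dev (K a j) x₀ j = ((K a j : ℝ) - K a₀ j) * x₀.1 j := by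
      unfold dev; rw [max_eq_left h0.le]; ring
    have h5 : (1 : ℝ) ≤ |(K a j : ℝ) - K a₀ j| := by
      have : (1 : ℤ) ≤ |(K a j : ℤ) - K a₀ j| := by
        refine Int.one_le_abs fun h => hne ?_
        omega
      exact_mod_cast this
    have h6 : |dev (K a₀ j) x₀ j - dev (K a j) x₀ j| ≤ 2 * (ρ * ‖x₀.1‖) :=
      (abs_sub _ _).trans (by linarith)
    rw [h4, abs_mul, abs_of_pos h0] at h6
    have h7 : x₀.1 j ≤ |(K a j : ℝ) - K a₀ j| * x₀.1 j := by nlinarith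
    have h8 : 0 < ρ * ‖x₀.1‖ := by positivity
    linarith

section loc

variable {δ δ₂ ρ : ℝ} {L : Finset ι} {k : ι → ℕ} {j₁ : ι}

/-- norm facts on the stretch direction -/
theorem LocData.inner_str (H : LocData K δ δ₂ ρ x₀ L k j₁) :
    inner ℝ x₀.1 (strE x₀ L k).1 = ‖(strE x₀ L k).1‖ ^ 2 ∧
    ‖x₀.1‖ ^ 2 - ‖(strE x₀ L k).1‖ ^ 2 ≤ Fintype.card ι * (16 * ρ * ‖x₀.1‖) ^ 2 ∧
    (δ₂ * ‖x₀.1‖) ^ 2 ≤ ‖(strE x₀ L k).1‖ ^ 2 ∨ δ₂ < 0 := by
  by_cases hδ₂ : δ₂ < 0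
  · exact Or.inr hδ₂
  left
  have h1 : ∀ j, (strE x₀ L k).1 j = if j ∈ L then x₀.1 j else 0 := fun j => by
    by_cases hj : j ∈ L
    · rw [strE_fst x₀ L k hj, if_pos hj]
    · rw [strE_fst' x₀ L k hj, if_neg hj]
  refine ⟨?_, ?_, ?_⟩
  · rw [inner_eq, norm_sq_eq]
    refine Finset.sum_congr rfl fun j _ => ?_
    rw [h1]; split_ifs <;> ring
  · rw [norm_sq_eq, norm_sq_eq, ← Finset.sum_sub_distrib]
    calc ∑ j, (x₀.1 j ^ 2 - (strE x₀ L k).1 j ^ 2) ≤ ∑ _j : ι, (16 * ρ * ‖x₀.1‖) ^ 2 := by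
          refine Finset.sum_le_sum fun j _ => ?_
          rw [h1]
          by_cases hj : j ∈ L
          · rw [if_pos hj, sub_self]; positivity
          · rw [if_neg hj]
            have h2 : |x₀.1 j| < 16 * ρ * ‖x₀.1‖ := not_le.mp fun h => hj ((H.memL j).mpr h)
            rw [← sq_abs]
            have h3 : |x₀.1 j| ^ 2 ≤ (16 * ρ * ‖x₀.1‖) ^ 2 :=
              pow_le_pow_left₀ (abs_nonneg _) h2.le 2
            linarith
      _ = _ := by simp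
  · rw [norm_sq_eq]
    have h2 : x₀.1 j₁ ^ 2 ≤ ∑ j, (strE x₀ L k).1 j ^ 2 := by
      calc x₀.1 j₁ ^ 2 = (strE x₀ L k).1 j₁ ^ 2 := by rw [h1, if_pos H.j₁L]
        _ ≤ _ := Finset.single_le_sum (f := fun j => (strE x₀ L k).1 j ^ 2)
          (fun _ _ => sq_nonneg _) (Finset.mem_univ _)
    refine le_trans ?_ h2
    rw [← sq_abs (x₀.1 j₁)]
    exact pow_le_pow_left₀ (mul_nonneg (not_lt.mp hδ₂) (norm_nonneg _)) H.j₁b.le 2

end loc

end Vale.Agent.P268.T.K373
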