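import Vale.Agent.P268.T.K373.Ray4

/-!
# P268, topological half: ray functions are equivalent to fat functions (the family)
-/

set_option linter.unusedSectionVars false

namespace Vale.Agent.P268.T.K373

open Set Filter Topology Vale.Agent.P268.T.K372

/-- Convex combinations of strongly monotone pairs. -/
theorem IncAt.convex {E : Type*} [NormedAddCommGroup E] [NormedSpace ℝ E] {T : Type*}
    [TopologicalSpace T] {s : Set T} {β₁ β₂ g₁ g₂ : T → E → ℝ} {t₀ : T} {x₀ : E}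
    {A : ℂ →L[ℝ] E} {w : T → ℝ} (hw : ∀ᶠ t in 𝓝[s] t₀, 0 ≤ w t ∧ w t ≤ 1)
    (h₁ : IncAt s β₁ t₀ x₀ A g₁) (h₂ : IncAt s β₂ t₀ x₀ A g₂) :
    IncAt s (fun t x => (1 - w t) * β₁ t x + w t * β₂ t x) t₀ x₀ A
      (fun t x => (1 - w t) * g₁ t x + w t * g₂ t x) := by
  obtain ⟨κ, hκ, K, U, hU, h1⟩ := h₁
  obtain ⟨κ', hκ', K', U', hU', h2⟩ := h₂
  refine ⟨Min.min κ κ', lt_min hκ hκ', Max.max K K', U ∩ U', inter_mem hU hU', ?_⟩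
  filter_upwards [h1, h2, hw] with t e1 e2 ew x hx c hc
  obtain ⟨a1, a2, a3⟩ := (e1.mono_const (min_le_left κ κ') (le_max_left K K')) x hx.1 c hc.1
  obtain ⟨b1, b2, b3⟩ := (e2.mono_const (min_le_right κ κ') (le_max_right K K')) x hx.2 c hc.2
  have w0 := ew.1
  have w1 : 0 ≤ 1 - w t := by linarith [ew.2]
  set P := g₁ t (x + A c) - g₁ t x
  set P' := g₂ t (x + A c) - g₂ t x
  set Q := β₁ t (x + A c) - β₁ t x
  set Q' := β₂ t (x + A c) - β₂ t x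
  have eP : (1 - w t) * g₁ t (x + A c) + w t * g₂ t (x + A c) -
      ((1 - w t) * g₁ t x + w t * g₂ t x) = (1 - w t) * P + w t * P' := by ring
  have eQ : (1 - w t) * β₁ t (x + A c) + w t * β₂ t (x + A c) -
      ((1 - w t) * β₁ t x + w t * β₂ t x) = (1 - w t) * Q + w t * Q' := by ring
  have conv : ∀ p p' M : ℝ, |p| ≤ M → |p'| ≤ M → |(1 - w t) * p + w t * p'| ≤ M := by
    intro p p' M hp hp'
    calc |(1 - w t) * p + w t * p'| ≤ |(1 - w t) * p| + |w t * p'| := abs_add_le _ _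
      _ = (1 - w t) * |p| + w t * |p'| := by rw [abs_mul, abs_mul, abs_of_nonneg w0,
          abs_of_nonneg w1]
      _ ≤ (1 - w t) * M + w t * M := by gcongr
      _ = M := by ring
  show _ ≤ ((1 - w t) * g₁ t (x + A c) + w t * g₂ t (x + A c) -
      ((1 - w t) * g₁ t x + w t * g₂ t x)) * c.re +
    ((1 - w t) * β₁ t (x + A c) + w t * β₂ t (x + A c) -
      ((1 - w t) * β₁ t x + w t * β₂ t x)) * c.im ∧
    |(1 - w t) * g₁ t (x + A c) + w t * g₂ t (x + A c) -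
      ((1 - w t) * g₁ t x + w t * g₂ t x)| ≤ _ ∧
    |(1 - w t) * β₁ t (x + A c) + w t * β₂ t (x + A c) -
      ((1 - w t) * β₁ t x + w t * β₂ t x)| ≤ _
  rw [eP, eQ]
  refine ⟨?_, conv _ _ _ a2 b2, conv _ _ _ a3 b3⟩
  have c1 := mul_le_mul_of_nonneg_left a1 w1
  have c2 := mul_le_mul_of_nonneg_left b1 w0
  calc Min.min κ κ' * ‖c‖ ^ 2
      = (1 - w t) * (Min.min κ κ' * ‖c‖ ^ 2) + w t * (Min.min κ κ' * ‖c‖ ^ 2) := by ring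
    _ ≤ _ := add_le_add c1 c2
    _ = _ := by ring

variable {ι : Type} [Fintype ι] [DecidableEq ι] {σ : Type} [Fintype σ] [Nonempty σ]
  {K : σ → ι → ℕ} {x₀ : EuclideanSpace ℝ ι × EuclideanSpace ℝ ι}
  {δ δ₂ ρ : ℝ} {L : Finset ι} {k : ι → ℕ} {j₁ : ι}

/-- the parameter set -/
def parS (ε₁ : ℝ) : Set (ℝ × ℝ) := Ioc 0 ε₁ ×ˢ Icc 0 1

theorem near_ev {s : Set (ℝ × ℝ)} {t₀ : ℝ × ℝ} (H : LocData K δ δ₂ ρ x₀ L k j₁)
    (e : EuclideanSpace ℝ ι × EuclideanSpace ℝ ι) :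
    LineInc s t₀ x₀ e fun _ x γ => x ∈ nearSet x₀ L k ∧ x + γ • e ∈ nearSet x₀ L k :=
  LineInc.of_ev (P := fun _ x => x ∈ nearSet x₀ L k)
    ⟨nearSet x₀ L k, H.near, Eventually.of_forall fun _ _ h => h⟩

theorem eps_ev {s : Set (ℝ × ℝ)} {t₀ : ℝ × ℝ} (h0 : 0 < t₀.1)
    (e : EuclideanSpace ℝ ι × EuclideanSpace ℝ ι) :
    LineInc s t₀ x₀ e fun t _ _ => t₀.1 / 2 ≤ t.1 ∧ t.1 ≤ 2 * t₀.1 := by
  refine ⟨univ, univ_mem, ?_⟩
  have h1 : ∀ᶠ t : ℝ × ℝ in 𝓝 t₀, t₀.1 / 2 < t.1 ∧ t.1 < 2 * t₀.1 := by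
    refine (continuous_fst.continuousAt.eventually (lt_mem_nhds (by linarith))).and
      (continuous_fst.continuousAt.eventually (gt_mem_nhds (by linarith)))
  exact (h1.filter_mono nhdsWithin_le_nhds).mono fun t ht x _ γ _ => ⟨ht.1.le, ht.2.le⟩

theorem line_ray {s : Set (ℝ × ℝ)} {t₀ : ℝ × ℝ} (h0 : 0 < t₀.1)
    (H : LocData K δ δ₂ ρ x₀ L k j₁) (hδ₂ : 0 ≤ δ₂) (hδ₂' : δ₂ ≤ 1) {a : σ}
    (ha : ∀ j ∈ L, 0 < x₀.1 j → K a j = k j) :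
    LineInc s t₀ x₀ (strE x₀ L k) fun t x γ =>
      t₀.1 * δ₂ ^ 2 * ‖x₀.1‖ / 4 * γ ^ 2 ≤
        γ * (rayH K a t.1 (x + γ • strE x₀ L k) - rayH K a t.1 x) ∧
      |rayH K a t.1 (x + γ • strE x₀ L k) - rayH K a t.1 x| ≤
        (2 * t₀.1 * ∑ j ∈ L, |x₀.1 j|) * |γ| := by
  refine ((near_ev H _).and (eps_ev h0 _)).mono ?_
  rintro t x γ ⟨⟨hx, hγ⟩, ht1, ht2⟩
  rw [str_rayH ha t.1 hx hγ]
  have e : rayH K a t.1 x + γ * (t.1 * ∑ j ∈ L, |x₀.1 j|) - rayH K a t.1 x =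
      γ * (t.1 * ∑ j ∈ L, |x₀.1 j|) := by ring
  rw [e]
  have hS0 : 0 ≤ ∑ j ∈ L, |x₀.1 j| := Finset.sum_nonneg fun _ _ => abs_nonneg _
  have hS : δ₂ ^ 2 * ‖x₀.1‖ ≤ ∑ j ∈ L, |x₀.1 j| := by
    have h1 : |x₀.1 j₁| ≤ ∑ j ∈ L, |x₀.1 j| :=
      Finset.single_le_sum (f := fun j => |x₀.1 j|) (fun _ _ => abs_nonneg _) H.j₁L
    have h2 := H.j₁b
    have h3 : δ₂ ^ 2 * ‖x₀.1‖ ≤ δ₂ * ‖x₀.1‖ := by
      have : δ₂ ^ 2 ≤ δ₂ := by nlinarith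
      exact mul_le_mul_of_nonneg_right this (norm_nonneg _)
    linarith
  constructor
  · have h4 : t₀.1 * δ₂ ^ 2 * ‖x₀.1‖ / 4 ≤ t.1 * ∑ j ∈ L, |x₀.1 j| := by
      have h5 : t₀.1 / 2 * (δ₂ ^ 2 * ‖x₀.1‖) ≤ t.1 * ∑ j ∈ L, |x₀.1 j| :=
        mul_le_mul ht1 hS (by positivity) (by linarith)
      have h6 : 0 ≤ t₀.1 * (δ₂ ^ 2 * ‖x₀.1‖) := by positivity
      linarith
    calc _ ≤ (t.1 * ∑ j ∈ L, |x₀.1 j|) * γ ^ 2 := mul_le_mul_of_nonneg_right h4 (sq_nonneg _)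
      _ = _ := by ring
  · rw [abs_mul, mul_comm]
    refine mul_le_mul_of_nonneg_right ?_ (abs_nonneg _)
    rw [abs_of_nonneg (mul_nonneg (by linarith) hS0)]
    exact mul_le_mul_of_nonneg_right ht2 hS0

theorem line_fat {s : Set (ℝ × ℝ)} {t₀ : ℝ × ℝ} (h0 : 0 < t₀.1)
    (H : LocData K δ δ₂ ρ x₀ L k j₁) (hδ₂ : 0 < δ₂) {a : σ}
    (ha : ∀ j ∈ L, 0 < x₀.1 j → K a j = k j) :
    LineInc s t₀ x₀ (strE x₀ L k) fun t x γ =>
      t₀.1 * δ₂ ^ 2 * ‖x₀.1‖ / 4 * γ ^ 2 ≤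
        γ * (fatH K a t.1 (x + γ • strE x₀ L k) - fatH K a t.1 x) ∧
      |fatH K a t.1 (x + γ • strE x₀ L k) - fatH K a t.1 x| ≤
        (2 * t₀.1 * ‖(strE x₀ L k).1‖) * |γ| := by
  have hR : 0 < ‖x₀.1‖ := norm_pos_iff.mpr H.u0
  obtain ⟨hi, -, hlow⟩ : inner ℝ x₀.1 (strE x₀ L k).1 = ‖(strE x₀ L k).1‖ ^ 2 ∧
      ‖x₀.1‖ ^ 2 - ‖(strE x₀ L k).1‖ ^ 2 ≤ Fintype.card ι * (16 * ρ * ‖x₀.1‖) ^ 2 ∧
      (δ₂ * ‖x₀.1‖) ^ 2 ≤ ‖(strE x₀ L k).1‖ ^ 2 := by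
    rcases H.inner_str with h | h
    · exact h
    · linarith
  have hpos : 0 < ‖(strE x₀ L k).1‖ ^ 2 := lt_of_lt_of_le (by positivity) hlow
  obtain ⟨r, hr, hr'⟩ := norm_line_pos hi hpos
  have hne : strE x₀ L k ≠ 0 := by
    intro h
    rw [h] at hpos
    simp at hpos
  have hcl : ∃ U ∈ 𝓝 x₀, ∀ᶠ t in 𝓝[s] t₀, ∀ x ∈ U, ‖x.1 - x₀.1‖ ≤ r :=
    ⟨Metric.ball x₀ r, Metric.ball_mem_nhds _ hr, Eventually.of_forall fun t x hx => by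
      rw [Metric.mem_ball, dist_eq_norm] at hx
      exact (norm_fst_le (x - x₀)).trans hx.le⟩
  refine (((near_ev H _).and (eps_ev h0 _)).and
    ((LineInc.of_ev hcl).and (LineInc.small hne hr))).mono ?_
  rintro t x γ ⟨⟨⟨hx, hγ⟩, ht1, ht2⟩, ⟨hc, -⟩, hγr⟩
  rw [str_fatH ha t.1 hx hγ]
  have k1 := hr' x.1 hc γ hγr
  have k2 := norm_line_le x.1 (strE x₀ L k).1 γ
  constructor
  · have h5 : δ₂ ^ 2 * ‖x₀.1‖ / 2 ≤ ‖(strE x₀ L k).1‖ ^ 2 / (2 * ‖x₀.1‖) := by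
      rw [le_div_iff₀ (by positivity)]
      nlinarith
    have h6 : δ₂ ^ 2 * ‖x₀.1‖ / 2 * γ ^ 2 ≤ γ * (‖x.1 + γ • (strE x₀ L k).1‖ - ‖x.1‖) :=
      (mul_le_mul_of_nonneg_right h5 (sq_nonneg _)).trans k1
    have h7 : 0 ≤ δ₂ ^ 2 * ‖x₀.1‖ / 2 * γ ^ 2 := by positivity
    calc t₀.1 * δ₂ ^ 2 * ‖x₀.1‖ / 4 * γ ^ 2 = t₀.1 / 2 * (δ₂ ^ 2 * ‖x₀.1‖ / 2 * γ ^ 2) := by ring
      _ ≤ t.1 * (γ * (‖x.1 + γ • (strE x₀ L k).1‖ - ‖x.1‖)) :=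
        mul_le_mul ht1 h6 h7 (by linarith)
      _ = _ := by ring
  · rw [abs_mul, abs_of_nonneg (by linarith : 0 ≤ t.1)]
    calc t.1 * |‖x.1 + γ • (strE x₀ L k).1‖ - ‖x.1‖| ≤
        (2 * t₀.1) * (‖(strE x₀ L k).1‖ * |γ|) := mul_le_mul ht2 k2 (abs_nonneg _) (by linarith)
      _ = _ := by ring

theorem line_imB {s : Set (ℝ × ℝ)} {t₀ : ℝ × ℝ} (H : LocData K δ δ₂ ρ x₀ L k j₁)
    (hδ₂ : 0 ≤ δ₂) :
    LineInc s t₀ x₀ (strE x₀ L k) fun _ x γ =>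
      |imB δ (x + γ • strE x₀ L k) - imB δ x| ≤
        1024 * (Fintype.card ι : ℝ) ^ 2 * ρ ^ 3 * ‖x₀.1‖ * |γ| := by
  have hR : 0 < ‖x₀.1‖ := norm_pos_iff.mpr H.u0
  have hρ := H.ρ0
  obtain ⟨hi, hup, -⟩ : inner ℝ x₀.1 (strE x₀ L k).1 = ‖(strE x₀ L k).1‖ ^ 2 ∧
      ‖x₀.1‖ ^ 2 - ‖(strE x₀ L k).1‖ ^ 2 ≤ Fintype.card ι * (16 * ρ * ‖x₀.1‖) ^ 2 ∧
      (δ₂ * ‖x₀.1‖) ^ 2 ≤ ‖(strE x₀ L k).1‖ ^ 2 := by
    rcases H.inner_str with h | h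
    · exact h
    · linarith
  have hN1 : (1 : ℝ) ≤ Fintype.card ι := by
    have : 0 < Fintype.card ι := Fintype.card_pos_iff.mpr ⟨j₁⟩
    exact_mod_cast this
  set e := (strE x₀ L k).1 with he
  have hquo : ∀ j ∈ L, |quo |x₀.1 j| e j (x₀.1, 0)| ≤ Fintype.card ι * (16 * ρ) ^ 2 := by
    intro j hj
    rw [quo_zero H.u0 hi rfl, abs_mul]
    have e1 : |(|x₀.1 j| / ‖x₀.1‖)| ≤ 1 := by
      rw [abs_div, abs_abs, abs_of_pos hR, div_le_one hR]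
      exact abs_apply_le _ _
    have hnn : ‖e‖ ^ 2 ≤ ‖x₀.1‖ ^ 2 := by
      have h1 : ‖e‖ ^ 2 ≤ ‖x₀.1‖ * ‖e‖ := by rw [← hi]; exact real_inner_le_norm _ _
      rcases (norm_nonneg e).eq_or_lt with h | h
      · rw [← h]; simp [sq_nonneg]
      · have : ‖e‖ ≤ ‖x₀.1‖ := by
          have : ‖e‖ * ‖e‖ ≤ ‖x₀.1‖ * ‖e‖ := by rw [← sq]; exact h1
          exact le_of_mul_le_mul_right this h
        gcongr
    have e2 : |(‖x₀.1‖ ^ 2 - ‖e‖ ^ 2) / ‖x₀.1‖ ^ 2| ≤ Fintype.card ι * (16 * ρ) ^ 2 := by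
      rw [abs_of_nonneg (div_nonneg (by linarith) (by positivity)), div_le_iff₀ (by positivity)]
      calc _ ≤ _ := hup
        _ = _ := by ring
    calc _ ≤ 1 * (Fintype.card ι * (16 * ρ) ^ 2) :=
          mul_le_mul e1 e2 (abs_nonneg _) zero_le_one
      _ = _ := one_mul _
  -- the quotient is small near `(x₀.1, 0)`
  have hq2 : ∀ᶠ p : EuclideanSpace ℝ ι × ℝ in 𝓝 (x₀.1, (0 : ℝ)), ∀ j ∈ L,
      |quo |x₀.1 j| e j p| ≤ 2 * Fintype.card ι * (16 * ρ) ^ 2 := by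
    rw [Finset.eventually_all]
    intro j hj
    have h1 := (quo_continuousAt (a₀ := |x₀.1 j|) (e := e) (j := j) H.u0).abs
    have h2 : |quo |x₀.1 j| e j (x₀.1, 0)| < 2 * Fintype.card ι * (16 * ρ) ^ 2 := by
      have h3 : 0 < Fintype.card ι * (16 * ρ) ^ 2 := by positivity
      linarith [hquo j hj]
    exact (h1.eventually (gt_mem_nhds h2)).mono fun p hp => le_of_lt hp
  obtain ⟨r, hr, hr'⟩ := Metric.eventually_nhds_iff.mp hq2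
  have hne : strE x₀ L k ≠ 0 := by
    intro h
    have h1 : (strE x₀ L k).1 j₁ = x₀.1 j₁ := strE_fst x₀ L k H.j₁L
    rw [h] at h1
    have h2 := H.j₁b
    rw [← h1] at h2
    simp only [Prod.fst_zero, PiLp.zero_apply, abs_zero] at h2
    have : 0 ≤ δ₂ * ‖x₀.1‖ := by positivity
    linarith
  have hcl : ∃ U ∈ 𝓝 x₀, ∀ᶠ t in 𝓝[s] t₀, ∀ x ∈ U, ‖x.1 - x₀.1‖ < r ∧ x.1 ≠ 0 ∧
      (∀ j, j ∉ L → mV δ x.1 j = 0) ∧ (∀ j ∈ L, |dev (k j) x j| ≤ 2 * ρ * ‖x₀.1‖) := by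
    have h1 : ∀ᶠ x in 𝓝 x₀, ‖x.1 - x₀.1‖ < r := by
      refine (Metric.ball_mem_nhds x₀ hr : _ ∈ 𝓝 x₀) |> fun h => ?_
      filter_upwards [h] with x hx
      rw [Metric.mem_ball, dist_eq_norm] at hx
      exact (norm_fst_le (x - x₀)).trans_lt hx
    have h2 : ∀ᶠ x in 𝓝 x₀, x.1 ≠ 0 := by
      have : ContinuousAt (fun x : EuclideanSpace ℝ ι × EuclideanSpace ℝ ι => x.1) x₀ :=
        continuous_fst.continuousAt
      exact this.eventually_ne H.u0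
    have h3 : ∀ᶠ x in 𝓝 x₀, ∀ j, j ∉ L → mV δ x.1 j = 0 := by
      rw [eventually_all]
      intro j
      by_cases hj : j ∈ L
      · exact Eventually.of_forall fun x h => absurd hj h
      · have h4 : |x₀.1 j| < δ * ‖x₀.1‖ := by
          have h5 : |x₀.1 j| < 16 * ρ * ‖x₀.1‖ := not_le.mp fun h => hj ((H.memL j).mpr h)
          have h6 : 16 * ρ * ‖x₀.1‖ ≤ δ * ‖x₀.1‖ :=
            mul_le_mul_of_nonneg_right H.ρδ.le hR.le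
          linarith
        have h5 : ∀ᶠ x : EuclideanSpace ℝ ι × EuclideanSpace ℝ ι in 𝓝 x₀,
            |x.1 j| < δ * ‖x.1‖ :=
          ContinuousAt.eventually_lt (Continuous.continuousAt (by fun_prop))
            (Continuous.continuousAt (by fun_prop)) h4
        filter_upwards [h5] with x hx _
        rw [mV, max_eq_right (by linarith), zero_div]
    have h4 : ∀ᶠ x in 𝓝 x₀, ∀ j ∈ L, |dev (k j) x j| ≤ 2 * ρ * ‖x₀.1‖ := by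
      rw [Finset.eventually_all]
      intro j hj
      have h5 : |dev (k j) x₀ j| < 2 * ρ * ‖x₀.1‖ := by
        have := H.dev j hj
        have h6 : 0 < ρ * ‖x₀.1‖ := by positivity
        linarith
      exact ((continuous_dev (k j) j).abs.continuousAt.eventually (gt_mem_nhds h5)).mono
        fun x hx => le_of_lt hx
    obtain ⟨U, hU, h5⟩ := (h1.and (h2.and (h3.and h4))).exists_mem
    exact ⟨U, hU, Eventually.of_forall fun t x hx => h5 x hx⟩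
  refine ((near_ev H _).and ((LineInc.of_ev hcl).and (LineInc.small hne (half_pos hr)))).mono ?_
  rintro t x γ ⟨⟨hx, hγ⟩, ⟨⟨c1, c2, c3, c4⟩, ⟨d1, d2, d3, d4⟩⟩, hγr⟩
  have hfst : (x + γ • strE x₀ L k).1 = x.1 + γ • e := by rw [he]; rfl
  have hterm : ∀ j, |mV δ (x + γ • strE x₀ L k).1 j * turn (zc (x + γ • strE x₀ L k) j) -
      mV δ x.1 j * turn (zc x j)| ≤
      1024 * Fintype.card ι * ρ ^ 3 * ‖x₀.1‖ * |γ| := by
    intro j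
    rw [str_turn hx hγ j, ← sub_mul, abs_mul]
    by_cases hj : j ∈ L
    · have q1 : |turn (zc x j)| ≤ 2 * ρ * ‖x₀.1‖ := by
        rw [near_turn hx hj, abs_mul, abs_sg, one_mul]
        exact c4 j hj
      have q2 : |mV δ (x + γ • strE x₀ L k).1 j - mV δ x.1 j| ≤
          |γ| * (2 * Fintype.card ι * (16 * ρ) ^ 2) := by
        refine (abs_mV_sub_le d2 c2 j).trans ?_
        have habs := str_abs hx hγ j
        rw [if_pos hj] at habs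
        rw [hfst] at habs d2 ⊢
        rw [quo_spec c2 d2 habs, abs_mul]
        refine mul_le_mul_of_nonneg_left ?_ (abs_nonneg _)
        refine hr' (y := (x.1, γ)) ?_ j hj
        rw [Prod.dist_eq, max_lt_iff, dist_eq_norm, dist_eq_norm, sub_zero, Real.norm_eq_abs]
        exact ⟨c1, lt_of_le_of_lt hγr (by linarith)⟩
      calc _ ≤ |γ| * (2 * Fintype.card ι * (16 * ρ) ^ 2) * (2 * ρ * ‖x₀.1‖) :=
            mul_le_mul q2 q1 (abs_nonneg _) (by positivity)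
        _ = _ := by ring
    · rw [c3 j hj, d3 j hj, sub_zero, abs_zero, zero_mul]
      positivity
  unfold imB
  rw [← Finset.sum_sub_distrib]
  calc _ ≤ ∑ _j : ι, 1024 * (Fintype.card ι : ℝ) * ρ ^ 3 * ‖x₀.1‖ * |γ| :=
        (Finset.abs_sum_le_sum_abs _ _).trans (Finset.sum_le_sum fun j _ => hterm j)
    _ = _ := by simp; ring

end Vale.Agent.P268.T.K373
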