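import Vale.Agent.P268.T.K373.Ray5

/-!
# P268, topological half: ray functions are equivalent to fat functions (conclusion)
-/

set_option linter.unusedSectionVars false

namespace Vale.Agent.P268.T.K373

open Set Filter Topology Vale.Agent.P268.T.K372

variable {ι : Type} [Fintype ι] [DecidableEq ι] {σ : Type} [Fintype σ] [Nonempty σ]
  {K : σ → ι → ℕ} {x₀ : EuclideanSpace ℝ ι × EuclideanSpace ℝ ι}
  {δ δ₂ ρ : ℝ} {L : Finset ι} {k : ι → ℕ} {j₁ : ι}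

theorem continuous_rayH (K : σ → ι → ℕ) (a : σ) :
    Continuous fun p : ℝ × (EuclideanSpace ℝ ι × EuclideanSpace ℝ ι) => rayH K a p.1 p.2 := by
  have h : (fun p : ℝ × (EuclideanSpace ℝ ι × EuclideanSpace ℝ ι) => rayH K a p.1 p.2) =
      fun p : ℝ × (EuclideanSpace ℝ ι × EuclideanSpace ℝ ι) =>
        p.1 * ∑ j, |p.2.1 j| - (∑ j, |p.2.2 j - (K a j : ℝ) * max (p.2.1 j) 0|) / 2 := by
    funext p; rw [rayH_eq]; rfl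
  rw [h]
  fun_prop

theorem continuous_phiV' (K : ι → ℕ) : Continuous (phiV K : EuclideanSpace ℝ ι → _) := by
  unfold phiV
  fun_prop

theorem continuous_fatH (K : σ → ι → ℕ) (a : σ) :
    Continuous fun p : ℝ × (EuclideanSpace ℝ ι × EuclideanSpace ℝ ι) => fatH K a p.1 p.2 := by
  unfold fatH
  have h1 : Continuous fun p : ℝ × (EuclideanSpace ℝ ι × EuclideanSpace ℝ ι) =>
      phiV (K a) p.2.1 := (continuous_phiV' (K a)).comp (by fun_prop)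
  fun_prop

theorem continuous_raySupV (K : σ → ι → ℕ) : Continuous
    fun p : ℝ × (EuclideanSpace ℝ ι × EuclideanSpace ℝ ι) => raySupV K p.1 p.2 :=
  Continuous.finset_sup'_apply _ fun a _ => continuous_rayH K a

theorem continuous_fatSupV (K : σ → ι → ℕ) : Continuous
    fun p : ℝ × (EuclideanSpace ℝ ι × EuclideanSpace ℝ ι) => fatSupV K p.1 p.2 :=
  Continuous.finset_sup'_apply _ fun a _ => continuous_fatH K a

theorem raySupV_smul (K : σ → ι → ℕ) (ε : ℝ) {r : ℝ} (hr : 0 ≤ r)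
    (x : EuclideanSpace ℝ ι × EuclideanSpace ℝ ι) : raySupV K ε (r • x) = r * raySupV K ε x := by
  simp only [raySupV]
  rw [show (fun a => rayH K a ε (r • x)) = fun a => r * rayH K a ε x from
    funext fun a => rayH_smul K a ε hr x]
  exact (Finset.mul₀_sup' hr _ _ _).symm

theorem fatSupV_smul (K : σ → ι → ℕ) (ε : ℝ) {r : ℝ} (hr : 0 ≤ r)
    (x : EuclideanSpace ℝ ι × EuclideanSpace ℝ ι) : fatSupV K ε (r • x) = r * fatSupV K ε x := by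
  simp only [fatSupV]
  rw [show (fun a => fatH K a ε (r • x)) = fun a => r * fatH K a ε x from
    funext fun a => fatH_smul K a ε hr x]
  exact (Finset.mul₀_sup' hr _ _ _).symm

/-- The family from the ray functions to the fat functions. -/
noncomputable def rfFn (K : σ → ι → ℕ) (δ : ℝ) (t : ℝ × ℝ)
    (x : EuclideanSpace ℝ ι × EuclideanSpace ℝ ι) : ℂ :=
  ⟨(1 - t.2) * raySupV K t.1 x + t.2 * fatSupV K t.1 x, (1 - t.2) * imT x + t.2 * imB δ x⟩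

theorem rfFn_zero (K : σ → ι → ℕ) (δ ε : ℝ) : rfFn K δ (ε, 0) = rayFn ε K := by
  funext x
  simp [rfFn, rayFn, raySupV]

theorem rfFn_one (K : σ → ι → ℕ) (δ ε : ℝ) : rfFn K δ (ε, 1) = fatFn δ ε K := by
  funext x
  simp [rfFn, fatFn, fatSupV]

theorem pair_cont {f : ℝ → (EuclideanSpace ℝ ι × EuclideanSpace ℝ ι) → ℝ}
    (hf : Continuous fun p : ℝ × (EuclideanSpace ℝ ι × EuclideanSpace ℝ ι) => f p.1 p.2) :
    Continuous fun p : (ℝ × ℝ) × (EuclideanSpace ℝ ι × EuclideanSpace ℝ ι) => f p.1.1 p.2 := by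
  have h : Continuous fun p : (ℝ × ℝ) × (EuclideanSpace ℝ ι × EuclideanSpace ℝ ι) =>
      (p.1.1, p.2) := (continuous_fst.comp continuous_fst).prodMk continuous_snd
  exact hf.comp h

theorem line_imT_str {s : Set (ℝ × ℝ)} {t₀ : ℝ × ℝ} (H : LocData K δ δ₂ ρ x₀ L k j₁) {μ : ℝ}
    (hμ : 0 < μ) : LineInc s t₀ x₀ (strE x₀ L k) fun _ x γ =>
      |imT (x + γ • strE x₀ L k) - imT x| ≤ μ * |γ| := by
  refine (near_ev H _).mono ?_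
  rintro t x γ ⟨hx, hγ⟩
  rw [str_imT hx hγ, sub_self, abs_zero]
  positivity

theorem line_imT_im {s : Set (ℝ × ℝ)} {t₀ : ℝ × ℝ} (H : LocData K δ δ₂ ρ x₀ L k j₁) {κ₂ : ℝ}
    (hκ : κ₂ ≤ 1) {Λ : ℝ} (hΛ : 1 ≤ Λ) : LineInc s t₀ x₀ (imE x₀ j₁) fun _ x γ =>
      κ₂ * γ ^ 2 ≤ γ * (imT (x + γ • imE x₀ j₁) - imT x) ∧
        |imT (x + γ • imE x₀ j₁) - imT x| ≤ Λ * |γ| := by
  refine (near_ev H _).mono ?_
  rintro t x γ ⟨hx, hγ⟩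
  rw [im_imT hx hγ H.j₁L]
  refine ⟨?_, ?_⟩
  · nlinarith [sq_nonneg γ]
  · nlinarith [abs_nonneg γ]

theorem line_imB_im {s : Set (ℝ × ℝ)} {t₀ : ℝ × ℝ} (H : LocData K δ δ₂ ρ x₀ L k j₁)
    (hδ : 0 ≤ δ) {Λ : ℝ} (hΛ : 1 ≤ Λ) : LineInc s t₀ x₀ (imE x₀ j₁) fun _ x γ =>
      (δ₂ - δ) * γ ^ 2 ≤ γ * (imB δ (x + γ • imE x₀ j₁) - imB δ x) ∧
        |imB δ (x + γ • imE x₀ j₁) - imB δ x| ≤ Λ * |γ| := by
  have hR : 0 < ‖x₀.1‖ := norm_pos_iff.mpr H.u0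
  have hcl : ∃ U ∈ 𝓝 x₀, ∀ᶠ t in 𝓝[s] t₀, ∀ x ∈ U, δ₂ - δ ≤ mV δ x.1 j₁ := by
    have e1 : ContinuousAt (fun x : EuclideanSpace ℝ ι × EuclideanSpace ℝ ι =>
        mV δ x.1 j₁) x₀ := by
      refine ContinuousAt.div (Continuous.continuousAt (by fun_prop))
        (Continuous.continuousAt (by fun_prop)) (norm_ne_zero_iff.mpr H.u0)
    have e2 : δ₂ - δ < mV δ x₀.1 j₁ := by
      rw [mV_eq H.u0]
      refine lt_max_of_lt_left ?_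
      have := H.j₁b
      have h3 : δ₂ < |x₀.1 j₁| / ‖x₀.1‖ := by rwa [lt_div_iff₀ hR]
      linarith
    obtain ⟨U, hU, e3⟩ := (e1.eventually (lt_mem_nhds e2)).exists_mem
    exact ⟨U, hU, Eventually.of_forall fun t x hx => (e3 x hx).le⟩
  refine ((near_ev H _).and (LineInc.of_ev hcl)).mono ?_
  rintro t x γ ⟨⟨hx, hγ⟩, hm, -⟩
  rw [im_imB hx hγ H.j₁L]
  constructor
  · nlinarith [sq_nonneg γ]
  · rw [abs_mul, abs_of_nonneg (mV_nonneg _ _ _)]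
    exact mul_le_mul_of_nonneg_right ((mV_le_one hδ _ _).trans hΛ) (abs_nonneg _)

theorem LineInc.weaken {s : Set (ℝ × ℝ)} {t₀ : ℝ × ℝ}
    {e : EuclideanSpace ℝ ι × EuclideanSpace ℝ ι} {f : ℝ × ℝ →
    (EuclideanSpace ℝ ι × EuclideanSpace ℝ ι) → ℝ} {c₁ Λ Λ' : ℝ} (hΛ : Λ ≤ Λ')
    (h : LineInc s t₀ x₀ e fun t x γ => c₁ * γ ^ 2 ≤ γ * (f t (x + γ • e) - f t x) ∧
      |f t (x + γ • e) - f t x| ≤ Λ * |γ|) :
    LineInc s t₀ x₀ e fun t x γ => c₁ * γ ^ 2 ≤ γ * (f t (x + γ • e) - f t x) ∧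
      |f t (x + γ • e) - f t x| ≤ Λ' * |γ| :=
  h.mono fun t x γ hh => ⟨hh.1, hh.2.trans (mul_le_mul_of_nonneg_right hΛ (abs_nonneg _))⟩

/-- the constants -/
structure Consts (κ₁ μ lam : ℝ) (t₀ : ℝ × ℝ) (δ δ₂ ρ : ℝ)
    (x₀ : EuclideanSpace ℝ ι × EuclideanSpace ℝ ι) : Prop where
  hδ0 : 0 < δ
  hδδ : δ < δ₂
  hδ₂1 : δ₂ ≤ 1
  hκ : κ₁ = t₀.1 * δ₂ ^ 2 * ‖x₀.1‖ / 4
  hκ0 : 0 < κ₁
  hμ : μ = 1024 * (Fintype.card ι : ℝ) ^ 2 * ρ ^ 3 * ‖x₀.1‖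
  hμ0 : 0 < μ
  hlam0 : 0 < lam
  hcond : (1 / 2 + lam * μ) ^ 2 < 4 * lam * (κ₁ * (δ₂ - δ))
  ht0 : 0 < t₀.1

theorem inc_ray {s : Set (ℝ × ℝ)} {t₀ : ℝ × ℝ} {κ₁ μ lam : ℝ}
    (H : LocData K δ δ₂ ρ x₀ L k j₁) (C : Consts κ₁ μ lam t₀ δ δ₂ ρ x₀) (ht₀ : t₀ ∈ s) {a : σ}
    (ha : ∀ j ∈ L, 0 < x₀.1 j → K a j = k j) :
    IncAt s (fun _ => imT) t₀ x₀ (dirA lam (strE x₀ L k) (imE x₀ j₁))
      (fun t x => rayH K a t.1 x) := by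
  have h1 := LineInc.weaken (le_max_left (2 * t₀.1 * ∑ j ∈ L, |x₀.1 j|) 1)
    (line_ray (s := s) C.ht0 H (C.hδ0.trans C.hδδ).le C.hδ₂1 ha)
  rw [← C.hκ] at h1
  have h2 : LineInc s t₀ x₀ (imE x₀ j₁) fun t x γ =>
      |rayH K a t.1 (x + γ • imE x₀ j₁) - rayH K a t.1 x| ≤ 1 / 2 * |γ| :=
    ⟨univ, univ_mem, Eventually.of_forall fun t x _ γ _ => im_rayH⟩
  exact incAt_of_dirs ht₀ C.hκ0 (by linarith [C.hδδ] : 0 < δ₂ - δ) (by norm_num) C.hμ0 C.hlam0 C.hcond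
    h1 (line_imT_str H C.hμ0) h2
    (line_imT_im H (by linarith [C.hδ₂1, C.hδ0]) (le_max_right _ _))

theorem inc_fat {s : Set (ℝ × ℝ)} {t₀ : ℝ × ℝ} {κ₁ μ lam : ℝ}
    (H : LocData K δ δ₂ ρ x₀ L k j₁) (C : Consts κ₁ μ lam t₀ δ δ₂ ρ x₀) (ht₀ : t₀ ∈ s) {a : σ}
    (ha : ∀ j ∈ L, 0 < x₀.1 j → K a j = k j) :
    IncAt s (fun _ => imB δ) t₀ x₀ (dirA lam (strE x₀ L k) (imE x₀ j₁))
      (fun t x => fatH K a t.1 x) := by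
  have h1 := LineInc.weaken (le_max_left (2 * t₀.1 * ‖(strE x₀ L k).1‖) 1)
    (line_fat (s := s) C.ht0 H (C.hδ0.trans C.hδδ) ha)
  rw [← C.hκ] at h1
  have h2 : LineInc s t₀ x₀ (imE x₀ j₁) fun t x γ =>
      |fatH K a t.1 (x + γ • imE x₀ j₁) - fatH K a t.1 x| ≤ 1 / 2 * |γ| :=
    ⟨univ, univ_mem, Eventually.of_forall fun t x _ γ _ => im_fatH⟩
  have h3 := line_imB (s := s) (t₀ := t₀) H (C.hδ0.trans C.hδδ).le
  rw [← C.hμ] at h3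
  exact incAt_of_dirs ht₀ C.hκ0 (by linarith [C.hδδ] : 0 < δ₂ - δ) (by norm_num) C.hμ0 C.hlam0 C.hcond
    h1 h3 h2 (line_imB_im H C.hδ0.le (le_max_right _ _))

theorem IncAt.sup_univ {s : Set (ℝ × ℝ)} {t₀ : ℝ × ℝ}
    {A : ℂ →L[ℝ] EuclideanSpace ℝ ι × EuclideanSpace ℝ ι}
    {f : σ → ℝ × ℝ → EuclideanSpace ℝ ι × EuclideanSpace ℝ ι → ℝ}
    {β : ℝ × ℝ → EuclideanSpace ℝ ι × EuclideanSpace ℝ ι → ℝ}
    (h1 : ∀ a ∈ (Finset.univ : Finset σ), CAt s (f a) t₀ x₀)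
    (h2 : ∀ a ∈ (Finset.univ : Finset σ), (∀ b ∈ (Finset.univ : Finset σ),
      f b t₀ x₀ ≤ f a t₀ x₀) → IncAt s β t₀ x₀ A (f a)) :
    IncAt s β t₀ x₀ A
      (fun t x => Finset.univ.sup' (Finset.univ_nonempty (α := σ)) fun a => f a t x) :=
  IncAt.sup' (Finset.univ_nonempty (α := σ)) h1 h2

theorem inc_raySup {s : Set (ℝ × ℝ)} {t₀ : ℝ × ℝ} {κ₁ μ lam : ℝ}
    (H : LocData K δ δ₂ ρ x₀ L k j₁) (C : Consts κ₁ μ lam t₀ δ δ₂ ρ x₀) (ht₀ : t₀ ∈ s)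
    (act : ∀ a, rayH K a t₀.1 x₀ = raySupV K t₀.1 x₀ → ∀ j, |dev (K a j) x₀ j| ≤ ρ * ‖x₀.1‖) :
    IncAt s (fun _ => imT) t₀ x₀ (dirA lam (strE x₀ L k) (imE x₀ j₁))
      (fun t x => raySupV K t.1 x) := by
  have h1 : ∀ a ∈ (Finset.univ : Finset σ), CAt s
      (fun (t : ℝ × ℝ) (x : EuclideanSpace ℝ ι × EuclideanSpace ℝ ι) => rayH K a t.1 x) t₀ x₀ :=
    fun a _ => (pair_cont (continuous_rayH K a)).continuousWithinAt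
  have h2 : ∀ a ∈ (Finset.univ : Finset σ), (∀ b ∈ (Finset.univ : Finset σ),
      rayH K b t₀.1 x₀ ≤ rayH K a t₀.1 x₀) → IncAt s (fun _ => imT) t₀ x₀
        (dirA lam (strE x₀ L k) (imE x₀ j₁)) (fun t x => rayH K a t.1 x) := by
    intro a _ ha
    have ha' : rayH K a t₀.1 x₀ = raySupV K t₀.1 x₀ :=
      le_antisymm (le_raySupV a) (Finset.sup'_le _ _ fun b hb => ha b hb)
    exact inc_ray H C ht₀ (H.act a (act a ha'))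
  exact IncAt.sup_univ h1 h2

theorem inc_fatSup {s : Set (ℝ × ℝ)} {t₀ : ℝ × ℝ} {κ₁ μ lam : ℝ}
    (H : LocData K δ δ₂ ρ x₀ L k j₁) (C : Consts κ₁ μ lam t₀ δ δ₂ ρ x₀) (ht₀ : t₀ ∈ s)
    (act : ∀ a, fatH K a t₀.1 x₀ = fatSupV K t₀.1 x₀ → ∀ j, |dev (K a j) x₀ j| ≤ ρ * ‖x₀.1‖) :
    IncAt s (fun _ => imB δ) t₀ x₀ (dirA lam (strE x₀ L k) (imE x₀ j₁))
      (fun t x => fatSupV K t.1 x) := by
  have h1 : ∀ a ∈ (Finset.univ : Finset σ), CAt s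
      (fun (t : ℝ × ℝ) (x : EuclideanSpace ℝ ι × EuclideanSpace ℝ ι) => fatH K a t.1 x) t₀ x₀ :=
    fun a _ => (pair_cont (continuous_fatH K a)).continuousWithinAt
  have h2 : ∀ a ∈ (Finset.univ : Finset σ), (∀ b ∈ (Finset.univ : Finset σ),
      fatH K b t₀.1 x₀ ≤ fatH K a t₀.1 x₀) → IncAt s (fun _ => imB δ) t₀ x₀
        (dirA lam (strE x₀ L k) (imE x₀ j₁)) (fun t x => fatH K a t.1 x) := by
    intro a _ ha
    have ha' : fatH K a t₀.1 x₀ = fatSupV K t₀.1 x₀ :=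
      le_antisymm (le_fatSupV a) (Finset.sup'_le _ _ fun b hb => ha b hb)
    exact inc_fat H C ht₀ (H.act a (act a ha'))
  exact IncAt.sup_univ h1 h2

theorem exists_consts {ε₁ : ℝ} (hδ : 0 < δ) (hδδ : δ < δ₂) (hδ₂ : Fintype.card ι * δ₂ ^ 2 < 1)
    (h2 : 131072 * (Fintype.card ι : ℝ) ^ 2 * (Fintype.card ι + 1) ^ 3 * ε₁ ^ 2 <
      δ₂ ^ 2 * (δ₂ - δ)) {t₀ : ℝ × ℝ} (ht1 : 0 < t₀.1) (ht1' : t₀.1 ≤ ε₁) (hu : x₀.1 ≠ 0)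
    (j₁ : ι) (hρ : ρ = 4 * (Fintype.card ι + 1) * t₀.1) :
    ∃ κ₁ μ lam, Consts κ₁ μ lam t₀ δ δ₂ ρ x₀ := by
  have hR : 0 < ‖x₀.1‖ := norm_pos_iff.mpr hu
  have hN1 : (1 : ℝ) ≤ Fintype.card ι := by
    have : 0 < Fintype.card ι := Fintype.card_pos_iff.mpr ⟨j₁⟩
    exact_mod_cast this
  have hρ0 : 0 < ρ := by rw [hρ]; positivity
  have hδ₂0 : 0 < δ₂ := hδ.trans hδδ
  have hδ₂1 : δ₂ ≤ 1 := by
    by_contra hcon
    push Not at hcon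
    nlinarith
  have hκ₂0 : 0 < δ₂ - δ := by linarith
  have hκ₁0 : 0 < t₀.1 * δ₂ ^ 2 * ‖x₀.1‖ / 4 := by positivity
  have hμ0 : 0 < 1024 * (Fintype.card ι : ℝ) ^ 2 * ρ ^ 3 * ‖x₀.1‖ := by positivity
  have hcond : 1 / 2 * (1024 * (Fintype.card ι : ℝ) ^ 2 * ρ ^ 3 * ‖x₀.1‖) <
      t₀.1 * δ₂ ^ 2 * ‖x₀.1‖ / 4 * (δ₂ - δ) := by
    have e1 : 1 / 2 * (1024 * (Fintype.card ι : ℝ) ^ 2 * ρ ^ 3 * ‖x₀.1‖) =
        (131072 * (Fintype.card ι : ℝ) ^ 2 * (Fintype.card ι + 1) ^ 3 * t₀.1 ^ 2) *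
          (t₀.1 * ‖x₀.1‖ / 4) := by
      rw [hρ]; ring
    have e2 : t₀.1 * δ₂ ^ 2 * ‖x₀.1‖ / 4 * (δ₂ - δ) =
        (δ₂ ^ 2 * (δ₂ - δ)) * (t₀.1 * ‖x₀.1‖ / 4) := by ring
    rw [e1, e2]
    refine mul_lt_mul_of_pos_right (lt_of_le_of_lt ?_ h2) (by positivity)
    gcongr
  obtain ⟨lam, hlam, hlamc⟩ := exists_lam hμ0 (by norm_num : (0 : ℝ) ≤ 1 / 2) hcond
  exact ⟨_, _, lam, ⟨hδ, hδδ, hδ₂1, rfl, hκ₁0, rfl, hμ0, hlam, hlamc, ht1⟩⟩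

theorem regAt_rf {ε₁ : ℝ} (hδ : 0 < δ) (hδδ : δ < δ₂) (hδ₂ : Fintype.card ι * δ₂ ^ 2 < 1)
    (h1 : 64 * (Fintype.card ι + 1) * ε₁ < δ)
    (h2 : 131072 * (Fintype.card ι : ℝ) ^ 2 * (Fintype.card ι + 1) ^ 3 * ε₁ ^ 2 <
      δ₂ ^ 2 * (δ₂ - δ))
    {t₀ : ℝ × ℝ} (ht₀ : t₀ ∈ parS ε₁) (hx : x₀ ≠ 0)
    (h0 : 0 ≤ (rfFn K δ t₀ x₀).re) : RegAt (parS ε₁) (rfFn K δ) t₀ x₀ := by
  have ht1 : 0 < t₀.1 := ht₀.1.1
  have ht1' : t₀.1 ≤ ε₁ := ht₀.1.2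
  have ht2 : 0 ≤ t₀.2 := ht₀.2.1
  have ht2' : t₀.2 ≤ 1 := ht₀.2.2
  have hor : 0 ≤ raySupV K t₀.1 x₀ ∨ 0 ≤ fatSupV K t₀.1 x₀ := by
    by_contra hcon
    push Not at hcon
    have h3 : (1 - t₀.2) * raySupV K t₀.1 x₀ + t₀.2 * fatSupV K t₀.1 x₀ < 0 := by
      rcases ht2.eq_or_lt with e | e
      · rw [← e]; simp [hcon.1]
      · nlinarith [hcon.1, hcon.2]
    exact absurd h0 (not_le.mpr h3)
  have hu := fst_ne_zero_of_nonneg hx hor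
  obtain ⟨actR, actF⟩ := active_bound ht1 hor
  obtain ⟨ρ, hρ⟩ : ∃ ρ, ρ = 4 * ((Fintype.card ι : ℝ) + 1) * t₀.1 := ⟨_, rfl⟩
  rw [← hρ] at actR actF
  have hρ0 : 0 < ρ := by rw [hρ]; positivity
  have hρδ : 16 * ρ < δ := by
    have : 16 * ρ = 64 * ((Fintype.card ι : ℝ) + 1) * t₀.1 := by rw [hρ]; ring
    rw [this]
    refine lt_of_le_of_lt ?_ h1
    gcongr
  obtain ⟨a₀, ha₀⟩ := exists_active_ray K t₀.1 x₀
  obtain ⟨L, k, j₁, H⟩ := exists_locData (K := K) (a₀ := a₀) hρ0 hρδ hδδ hδ₂ hu (actR a₀ ha₀)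
  obtain ⟨κ₁, μ, lam, C⟩ := exists_consts hδ hδδ hδ₂ h2 ht1 ht1' hu j₁ hρ
  have hw : ∀ᶠ t : ℝ × ℝ in 𝓝[parS ε₁] t₀, 0 ≤ t.2 ∧ t.2 ≤ 1 := by
    filter_upwards [self_mem_nhdsWithin] with t ht
    exact ⟨ht.2.1, ht.2.2⟩
  exact RegAt.of_incAt (IncAt.convex hw (inc_raySup H C ht₀ actR) (inc_fatSup H C ht₀ actF))

theorem cont_rf (K : σ → ι → ℕ) (hδ : 0 ≤ δ) : Continuous
    fun p : (ℝ × ℝ) × (EuclideanSpace ℝ ι × EuclideanSpace ℝ ι) => rfFn K δ p.1 p.2 := by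
  have e : (fun p : (ℝ × ℝ) × (EuclideanSpace ℝ ι × EuclideanSpace ℝ ι) => rfFn K δ p.1 p.2) =
      fun p : (ℝ × ℝ) × (EuclideanSpace ℝ ι × EuclideanSpace ℝ ι) =>
        ((((1 - p.1.2) * raySupV K p.1.1 p.2 + p.1.2 * fatSupV K p.1.1 p.2 : ℝ)) : ℂ) +
        (((1 - p.1.2) * imT p.2 + p.1.2 * imB δ p.2 : ℝ) : ℂ) * Complex.I := by
    funext p
    apply Complex.ext <;> simp [rfFn]
  rw [e]
  have c0 : Continuous fun p : (ℝ × ℝ) × (EuclideanSpace ℝ ι × EuclideanSpace ℝ ι) => p.1.2 :=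
    continuous_snd.comp continuous_fst
  have c1 := pair_cont (continuous_raySupV K)
  have c2 := pair_cont (continuous_fatSupV K)
  have c3 : Continuous fun p : (ℝ × ℝ) × (EuclideanSpace ℝ ι × EuclideanSpace ℝ ι) =>
      imT p.2 := continuous_imT.comp continuous_snd
  have c4 : Continuous fun p : (ℝ × ℝ) × (EuclideanSpace ℝ ι × EuclideanSpace ℝ ι) =>
      imB δ p.2 := (continuous_imB hδ).comp continuous_snd
  exact (Complex.continuous_ofReal.comp (((continuous_const.sub c0).mul c1).add (c0.mul c2))).add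
    ((Complex.continuous_ofReal.comp (((continuous_const.sub c0).mul c3).add (c0.mul c4))).mul
      continuous_const)

/-- The family is of class `H`. -/
theorem hFam_rf (K : σ → ι → ℕ) {ε₁ : ℝ} (hδ : 0 < δ) (hδδ : δ < δ₂)
    (hδ₂ : Fintype.card ι * δ₂ ^ 2 < 1) (h1 : 64 * (Fintype.card ι + 1) * ε₁ < δ)
    (h2 : 131072 * (Fintype.card ι : ℝ) ^ 2 * (Fintype.card ι + 1) ^ 3 * ε₁ ^ 2 <
      δ₂ ^ 2 * (δ₂ - δ)) : HFam (parS ε₁) (rfFn K δ) where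
  cont := (cont_rf K hδ.le).continuousOn
  hom := fun t _ r hr x => by
    apply Complex.ext
    · simp only [rfFn, raySupV_smul K _ hr, fatSupV_smul K _ hr, Complex.smul_re, smul_eq_mul]
      ring
    · simp only [rfFn, imT_smul hr, imB_smul δ hr, Complex.smul_im, smul_eq_mul]
      ring
  reg := fun t₀ ht₀ x₀ hx h0 => regAt_rf hδ hδδ hδ₂ h1 h2 ht₀ hx h0

/-! ### Transport to `ι → ℂ` -/

/-- `ι → ℂ` is `V × V`. -/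
noncomputable def toVV : (ι → ℂ) ≃L[ℝ] EuclideanSpace ℝ ι × EuclideanSpace ℝ ι :=
  LinearEquiv.toContinuousLinearEquiv
    { toFun := fun z => (WithLp.toLp 2 fun j => (z j).re, WithLp.toLp 2 fun j => (z j).im)
      invFun := fun x j => zc x j
      map_add' := fun z w => by
        refine Prod.ext ?_ ?_ <;> · ext j; simp
      map_smul' := fun r z => by
        refine Prod.ext ?_ ?_ <;> · ext j; simp
      left_inv := fun z => by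
        funext j; apply Complex.ext <;> simp [zc]
      right_inv := fun x => by
        refine Prod.ext ?_ ?_ <;> · ext j; simp [zc] }

theorem zc_toVV (z : ι → ℂ) (j : ι) : zc (toVV z) j = z j := by
  apply Complex.ext <;> rfl

theorem FS_eq (K : σ → ι → ℕ) (ε : ℝ) : FS ε K = fun z => rayFn ε K (toVV z) := by
  funext z
  simp only [FS, rayFn, raySup, turnSum, rayH, imT, zc_toVV]

theorem exists_eps (ι : Type) [Fintype ι] {δ : ℝ} (hδ : 0 < δ)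
    (hδ2 : Fintype.card ι * δ ^ 2 < 1) : ∃ δ₂ ε₁ : ℝ, 0 < ε₁ ∧ δ < δ₂ ∧
      Fintype.card ι * δ₂ ^ 2 < 1 ∧ 64 * (Fintype.card ι + 1) * ε₁ < δ ∧
      131072 * (Fintype.card ι : ℝ) ^ 2 * (Fintype.card ι + 1) ^ 3 * ε₁ ^ 2 <
        δ₂ ^ 2 * (δ₂ - δ) := by
  obtain ⟨δ₂, h1, h2⟩ : ∃ δ₂ : ℝ, δ < δ₂ ∧ Fintype.card ι * δ₂ ^ 2 < 1 := by
    have hc : Continuous fun d : ℝ => (Fintype.card ι : ℝ) * d ^ 2 := by fun_prop
    have h3 : ∀ᶠ d in 𝓝 δ, (Fintype.card ι : ℝ) * d ^ 2 < 1 :=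
      hc.continuousAt.eventually (gt_mem_nhds hδ2)
    have h4 : ∀ᶠ d in 𝓝[>] δ, (Fintype.card ι : ℝ) * d ^ 2 < 1 := h3.filter_mono nhdsWithin_le_nhds
    obtain ⟨d, hd1, hd2⟩ := (h4.and self_mem_nhdsWithin).exists
    exact ⟨d, hd2, hd1⟩
  have hpos : 0 < δ₂ ^ 2 * (δ₂ - δ) := by
    have : 0 < δ₂ := hδ.trans h1
    have h3 : 0 < δ₂ - δ := by linarith
    positivity
  have e1 : ∀ᶠ e in 𝓝[>] (0 : ℝ), 64 * ((Fintype.card ι : ℝ) + 1) * e < δ := by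
    have hc : Continuous fun e : ℝ => 64 * ((Fintype.card ι : ℝ) + 1) * e := by fun_prop
    exact (hc.continuousAt.eventually (gt_mem_nhds (by simpa using hδ))).filter_mono
      nhdsWithin_le_nhds
  have e2 : ∀ᶠ e in 𝓝[>] (0 : ℝ), 131072 * (Fintype.card ι : ℝ) ^ 2 *
      (Fintype.card ι + 1) ^ 3 * e ^ 2 < δ₂ ^ 2 * (δ₂ - δ) := by
    have hc : Continuous fun e : ℝ => 131072 * (Fintype.card ι : ℝ) ^ 2 *
      ((Fintype.card ι : ℝ) + 1) ^ 3 * e ^ 2 := by fun_prop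
    exact (hc.continuousAt.eventually (gt_mem_nhds (by simpa using hpos))).filter_mono
      nhdsWithin_le_nhds
  obtain ⟨e, ⟨h3, h4⟩, h5⟩ := ((e1.and e2).and self_mem_nhdsWithin).exists
  exact ⟨δ₂, e, h5, h1, h2, h3, h4⟩

theorem ray_fat_eqv (K : σ → ι → ℕ) {δ ε₁ : ℝ} (hF : HFam (parS ε₁) (rfFn K δ)) {ε ε' : ℝ}
    (hε : ε ∈ Ioc 0 ε₁) (hε' : ε' ∈ Ioc 0 ε₁) : HEqv (rayFn ε K) (fatFn δ ε' K) := by
  have hconn : IsPreconnected (parS ε₁) :=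
    ((convex_Ioc _ _).prod (convex_Icc _ _)).isPreconnected
  have h1 : ((ε, 0) : ℝ × ℝ) ∈ parS ε₁ := ⟨hε, by simp⟩
  have h2 : ((ε', 1) : ℝ × ℝ) ∈ parS ε₁ := ⟨hε', by simp⟩
  have h3 : HEqv (rfFn K δ (ε, 0)) (rfFn K δ (ε', 1)) := HEqv.of_fam hconn hF h1 h2
  have e1 := rfFn_zero K δ ε
  have e2 := rfFn_one K δ ε'
  rw [e1, e2] at h3
  exact h3

omit [DecidableEq ι] in
theorem HEqv.of_toVV {G : EuclideanSpace ℝ ι × EuclideanSpace ℝ ι → ℂ} (h : HFun G) :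
    HEqv (fun z => G (toVV z)) G :=
  HEqv.of_linear toVV h

theorem fs_ray_eqv (K : σ → ι → ℕ) {ε : ℝ} (h : HFun (rayFn ε K)) :
    HEqv (FS ε K) (rayFn ε K) := by
  have h1 := HEqv.of_toVV h
  rw [← FS_eq] at h1
  exact h1

omit [DecidableEq ι] in
/-- **P1**: all ray functions and fat functions with small parameters are equivalent. -/
theorem fs_fat (K : σ → ι → ℕ) {δ : ℝ} (hδ : 0 < δ) (hδ2 : Fintype.card ι * δ ^ 2 < 1) :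
    ∃ ε₀ > 0, ∀ ε ∈ Ioc 0 ε₀, ∀ ε' ∈ Ioc 0 ε₀, HEqv (FS ε K) (fatFn δ ε' K) := by
  classical
  obtain ⟨δ₂, ε₁, hε₁, h1, h2, h3, h4⟩ := exists_eps ι hδ hδ2
  have hF := hFam_rf K hδ h1 h2 h3 h4
  refine ⟨ε₁, hε₁, fun ε hε ε' hε' => ?_⟩
  have e1 := ray_fat_eqv K hF hε hε'
  exact (fs_ray_eqv K e1.left).trans e1

omit [DecidableEq ι] in
/-- Ray functions with small parameters are of class `H` and equivalent to each other. -/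
theorem fs_fs (K : σ → ι → ℕ) : ∃ ε₀ > 0, ∀ ε ∈ Ioc 0 ε₀, ∀ ε' ∈ Ioc 0 ε₀,
    HEqv (FS ε K) (FS ε' K) := by
  obtain ⟨δ, hδ, hδ2⟩ : ∃ δ : ℝ, 0 < δ ∧ Fintype.card ι * δ ^ 2 < 1 := by
    have hc : Continuous fun d : ℝ => (Fintype.card ι : ℝ) * d ^ 2 := by fun_prop
    have h3 : ∀ᶠ d in 𝓝[>] (0 : ℝ), (Fintype.card ι : ℝ) * d ^ 2 < 1 :=
      (hc.continuousAt.eventually (gt_mem_nhds (by simp))).filter_mono nhdsWithin_le_nhds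
    obtain ⟨d, hd1, hd2⟩ := (h3.and self_mem_nhdsWithin).exists
    exact ⟨d, hd2, hd1⟩
  obtain ⟨ε₀, h0, h⟩ := fs_fat K hδ hδ2
  exact ⟨ε₀, h0, fun ε hε ε' hε' => (h ε hε ε hε).trans (h ε' hε' ε hε).symm⟩

end Vale.Agent.P268.T.K373
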